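import Vale.Agent.P218UI.Alg
import Vale.Agent.P218UD.WtR

/-! The weight `γ = (1 - K)₊³ / (1 + W)` which vanishes near the loud lattice points. -/

open MeasureTheory Set Filter Topology Metric
open scoped ENNReal

namespace Vale.Agent.P218UI

open Vale.Agent.P218UA

/-- lattice points -/
abbrev LQ := ℤ × (Fin 3 → ℤ)

/-- the rescaled square of the distance to a lattice point -/
noncomputable def uu (Q : LQ) : E3 → ℝ := uq (zQ Q) (rQ Q)

lemma rQ_pos (Q : LQ) : 0 < rQ Q := Real.exp_pos _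

/-- the sum of the cores -/
noncomputable def KK (F : Finset LQ) (b : LQ → ℝ → ℝ) (t : ℝ) (x : E3) (y : ℝ) : ℝ :=
  ∑ Q ∈ F, b Q t * ll (y - Q.1) * fk (uu Q x)

/-- the sum of the logarithmic cut-offs -/
noncomputable def WW (c W₀ : ℝ) (M : ℕ) (F : Finset LQ) (b : LQ → ℝ → ℝ) (t : ℝ) (x : E3) (y : ℝ) :
    ℝ := ∑ Q ∈ F, b Q t * (W₀ * et c (y - Q.1)) * fp M (uu Q x)

/-- the weight -/
noncomputable def gam (c W₀ : ℝ) (M : ℕ) (F : Finset LQ) (b : LQ → ℝ → ℝ) (t : ℝ) (x : E3)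
    (y : ℝ) : ℝ := ph (KK F b t x y) * dm (WW c W₀ M F b t x y)

lemma far {M : ℕ} {Q : LQ} {x : E3} (h : 2 ^ (M + 3) * rQ Q ≤ ‖x - zQ Q‖) :
    4 ^ (M + 2) < uu Q x ∧ 2 < uu Q x := by
  have hr := rQ_pos Q
  have h1 : (2 : ℝ) ^ (M + 3) ≤ ‖(rQ Q)⁻¹ • (x - zQ Q)‖ := by
    rw [norm_smul, norm_inv, Real.norm_of_nonneg hr.le, le_inv_mul_iff₀ hr]
    linarith
  have h2 := pow_le_pow_left₀ (by positivity) h1 2
  rw [← four_pow, pow_succ] at h2
  have h3 : (4 : ℝ) ≤ 4 ^ (M + 2) := le_self_pow₀ (by norm_num) (by omega)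
  unfold uu uq
  constructor <;> linarith

lemma fk_ne {s : ℝ} (h : fk s ≠ 0) : s ≤ 2 := by
  by_contra h'
  exact h (fk_zero (not_le.1 h').le)

lemma ind_core {x : E3} (h : ‖x‖ ^ 2 ≤ 2) : ind 2 x = 1 :=
  if_pos (by nlinarith [norm_nonneg x])

lemma gk_le (x : E3) : gk (‖x‖ ^ 2) ≤ 8 * pB * ind 2 x := by
  unfold gk
  split_ifs with h
  · rw [ind_core h, mul_one]
  · exact mul_nonneg (by linarith [one_le_pB]) (ind_nonneg _ _)

lemma gp_le (M : ℕ) (x : E3) : gp M (‖x‖ ^ 2) ≤ 4 * pB / M ^ 2 * sn (M + 2) x := by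
  have hB := one_le_pB
  unfold gp
  split_ifs with h
  · calc _ = 4 * pB / M ^ 2 * (1 / (1 + ‖x‖ ^ 2)) := by rw [div_mul_div_comm, mul_one]
      _ ≤ _ := mul_le_mul_of_nonneg_left (inv_le_sn _ h) (by positivity)
  · exact mul_nonneg (by positivity) (sn_nonneg _ _)

lemma gk_bd (s : ℝ) : gk s ≤ (8 * pB) ^ 2 := by
  have hB := one_le_pB
  unfold gk
  split_ifs <;> nlinarith

lemma gp_bd {M : ℕ} (hM : 1 ≤ M) {s : ℝ} (hs : 0 ≤ s) : gp M s ≤ (8 * pB) ^ 2 := by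
  have hB := one_le_pB
  have hM' : (1 : ℝ) ≤ M := by exact_mod_cast hM
  unfold gp
  split_ifs
  · have : 4 * pB / (M ^ 2 * (1 + s)) ≤ 4 * pB :=
      div_le_self (by linarith) (one_le_mul_of_one_le_of_one_le (one_le_pow₀ hM') (by linarith))
    nlinarith
  · positivity

variable {c W₀ : ℝ} {M : ℕ} {F : Finset LQ} {b : LQ → ℝ → ℝ} {J : Set ℝ}

lemma dat (hc : 0 < c) (hW : 0 < W₀) (hM : 1 ≤ M) (hJ : IsOpen J)
    (hb : ∀ Q ∈ F, ∀ t ∈ J, 0 ≤ b Q t ∧ b Q t ≤ 1) {t : ℝ} (ht : t ∈ J) (x : E3) {a : ℝ}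
    {G : Finset LQ} (hG : G ⊆ F)
    (hact : ∀ Q ∈ F, Q.1 < a + 4 → b Q t ≠ 0 → ‖x - zQ Q‖ < 2 ^ (M + 3) * rQ Q → Q ∈ G) {y : ℝ}
    (hy : y ≤ a) {n : E3} (hn : ‖n‖ = 1) :
    Dat F G c pB (Real.exp (4 * c)) W₀ (fun Q => b Q t) (fun Q => deriv (b Q) t)
      (fun Q => fk (uu Q x)) (fun Q => fp M (uu Q x)) (fun Q => ll (y - Q.1))
      (fun Q => deriv ll (y - Q.1)) (fun Q => et c (y - Q.1)) (fun Q => deriv (et c) (y - Q.1))
      (fun Q => mj c (y - Q.1)) (fun Q => gk (uu Q x) / rQ Q ^ 2)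
      (fun Q => gp M (uu Q x) / rQ Q ^ 2) (fun Q => trT n (hs (fun x => fk (uu Q x)) x))
      (fun Q => trT n (hs (fun x => fp M (uu Q x)) x))
      (fun Q => gradient (fun x => fk (uu Q x)) x) (fun Q => gradient (fun x => fp M (uu Q x)) x)
    where
  sub := hG
  hc := hc
  hB := by linarith [one_le_pB]
  hE := (Real.exp_pos _).le
  hW := hW
  β0 Q hQ := (hb Q hQ t ht).1
  β1 Q hQ := (hb Q hQ t ht).2
  k0 _ := rad_k.nonneg _
  k1 _ := rad_k.le_one _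
  p0 _ := (rad_p hM).nonneg _
  p1 _ := (rad_p hM).le_one _
  l0 _ := ll_nonneg _
  l1 _ := ll_le_one _
  η0 _ := et_nonneg _ _
  η1 _ := et_le_one hc _
  gk0 _ := div_nonneg (rad_k.g_nonneg _ (uq_nonneg _ _ _)) (sq_nonneg _)
  gp0 _ := div_nonneg ((rad_p hM).g_nonneg _ (uq_nonneg _ _ _)) (sq_nonneg _)
  lη _ := ll_le_et hc _
  dl _ := deriv_ll hc _
  dη _ := deriv_et c _
  ηm _ := et_le_mj c _
  lm _ h := one_le_mj hc h
  dk _ := rad_k.grad3 _ _ _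
  dp _ := (rad_p hM).grad3 _ _ _
  tk Q := rad_k.tr3 _ (rQ_pos Q) hn _
  tp Q := (rad_p hM).tr3 _ (rQ_pos Q) hn _
  core Q h := by
    refine fp_one M (uq_nonneg _ _ _) ?_
    rcases h with h | h
    · by_contra h'
      exact h (by simp only [gk, if_neg h', zero_div])
    · exact fk_ne h
  act Q hQ hQ' := by
    by_cases h1 : b Q t = 0
    · refine Or.inl ⟨h1, IsLocalMin.deriv_eq_zero ?_⟩
      filter_upwards [hJ.mem_nhds ht] with s hs
      rw [h1]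
      exact (hb Q hQ s hs).1
    by_cases h2 : (Q.1 : ℝ) < a + 4
    · have h3 := far (not_lt.1 fun h => hQ' (hact Q hQ h2 h1 h))
      refine Or.inr (Or.inr ⟨fk_zero h3.2.le, fp_zero hM h3.1, ?_, ?_⟩)
      · simp only [gk, if_neg (not_le.2 h3.2), zero_div]
      · simp only [gp, if_neg (not_le.2 h3.1), zero_div]
    · exact Or.inr (Or.inl (et_zero c (by linarith [not_lt.1 h2])))

lemma KK_nonneg (hb : ∀ Q ∈ F, ∀ t ∈ J, 0 ≤ b Q t ∧ b Q t ≤ 1) {t : ℝ} (ht : t ∈ J) (x : E3)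
    (y : ℝ) : 0 ≤ KK F b t x y :=
  Finset.sum_nonneg fun Q hQ =>
    mul_nonneg (mul_nonneg (hb Q hQ t ht).1 (ll_nonneg _)) (rad_k.nonneg _)

lemma WW_nonneg (hW : 0 < W₀) (hb : ∀ Q ∈ F, ∀ t ∈ J, 0 ≤ b Q t ∧ b Q t ≤ 1) {t : ℝ} (ht : t ∈ J)
    (x : E3) (y : ℝ) : 0 ≤ WW c W₀ M F b t x y :=
  Finset.sum_nonneg fun Q hQ =>
    mul_nonneg (mul_nonneg (hb Q hQ t ht).1 (mul_nonneg hW.le (et_nonneg _ _))) (pf_nonneg _)

lemma gam_cd (hW : 0 < W₀) (hM : 1 ≤ M) (hb2 : ∀ Q ∈ F, ContDiffOn ℝ 2 (b Q) J)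
    (hb : ∀ Q ∈ F, ∀ t ∈ J, 0 ≤ b Q t ∧ b Q t ≤ 1) :
    ContDiffOn ℝ 2 (fun p : ℝ × E3 × ℝ => gam c W₀ M F b p.1 p.2.1 p.2.2) (J ×ˢ univ) := by
  have h1 : ∀ Q ∈ F, ContDiffOn ℝ 2 (fun p : ℝ × E3 × ℝ => b Q p.1) (J ×ˢ univ) := fun Q hQ =>
    (hb2 Q hQ).comp contDiffOn_fst fun _ hp => hp.1
  have h2 : ∀ Q : LQ, ContDiff ℝ 2 fun p : ℝ × E3 × ℝ => p.2.2 - (Q.1 : ℝ) := fun Q =>
    contDiff_snd.snd.sub contDiff_const
  have hK : ContDiffOn ℝ 2 (fun p : ℝ × E3 × ℝ => KK F b p.1 p.2.1 p.2.2) (J ×ˢ univ) :=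
    ContDiffOn.sum fun Q hQ => ((h1 Q hQ).mul (ll_cd.comp (h2 Q)).contDiffOn).mul
      ((rad_k.cd3 _ _).comp contDiff_snd.fst).contDiffOn
  have hW' : ContDiffOn ℝ 2 (fun p : ℝ × E3 × ℝ => WW c W₀ M F b p.1 p.2.1 p.2.2) (J ×ˢ univ) :=
    ContDiffOn.sum fun Q hQ => ((h1 Q hQ).mul
      (contDiff_const.mul ((et_cd c).comp (h2 Q))).contDiffOn).mul
      (((rad_p hM).cd3 _ _).comp contDiff_snd.fst).contDiffOn
  refine (ph_cd.comp_contDiffOn hK).mul ((contDiffOn_const.add hW').inv fun p hp => ?_)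
  have := WW_nonneg (c := c) (M := M) hW hb hp.1 p.2.1 p.2.2
  linarith

lemma KK_cd (t y : ℝ) : ContDiff ℝ 2 fun x => KK F b t x y :=
  ContDiff.sum fun _ _ => contDiff_const.mul (rad_k.cd3 _ _)

lemma WW_cd (hM : 1 ≤ M) (t y : ℝ) : ContDiff ℝ 2 fun x => WW c W₀ M F b t x y :=
  ContDiff.sum fun _ _ => contDiff_const.mul ((rad_p hM).cd3 _ _)

lemma gam_gradient (hM : 1 ≤ M) {t : ℝ} {x : E3} {y : ℝ} (h0 : 0 ≤ WW c W₀ M F b t x y) :
    gradient (fun x => gam c W₀ M F b t x y) x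
      = -((3 * max (1 - KK F b t x y) 0 ^ 2 * dm (WW c W₀ M F b t x y))
          • ∑ Q ∈ F, (b Q t * ll (y - Q.1)) • gradient (fun x => fk (uu Q x)) x
        + (ph (KK F b t x y) * dm (WW c W₀ M F b t x y) ^ 2)
          • ∑ Q ∈ F, (b Q t * (W₀ * et c (y - Q.1))) • gradient (fun x => fp M (uu Q x)) x) := by
  rw [← gradient_sum F _ (φ := fun Q x => fk (uu Q x)) fun Q => rad_k.cd3 (zQ Q) (rQ Q),
    ← gradient_sum F _ (φ := fun Q x => fp M (uu Q x)) fun Q => (rad_p hM).cd3 (zQ Q) (rQ Q)]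
  exact gam_grad (KK_cd t y).contDiffAt (WW_cd hM t y).contDiffAt h0

lemma gam_tr (hM : 1 ≤ M) {t : ℝ} {x : E3} {y : ℝ} (h0 : 0 ≤ WW c W₀ M F b t x y) {n : E3}
    (hn : ‖n‖ = 1) : -trT n (hs (fun x => gam c W₀ M F b t x y) x)
      ≤ 3 * max (1 - KK F b t x y) 0 ^ 2 * dm (WW c W₀ M F b t x y)
          * ∑ Q ∈ F, b Q t * ll (y - Q.1) * trT n (hs (fun x => fk (uu Q x)) x)
        + ph (KK F b t x y) * dm (WW c W₀ M F b t x y) ^ 2
          * ∑ Q ∈ F, b Q t * (W₀ * et c (y - Q.1)) * trT n (hs (fun x => fp M (uu Q x)) x) := by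
  rw [← trT_sum F _ (φ := fun Q x => fk (uu Q x)) fun Q => rad_k.cd3 (zQ Q) (rQ Q),
    ← trT_sum F _ (φ := fun Q x => fp M (uu Q x)) fun Q => (rad_p hM).cd3 (zQ Q) (rQ Q)]
  exact gam_trT (KK_cd t y).contDiffAt (WW_cd hM t y).contDiffAt h0 hn

lemma gam_dy {t : ℝ} {x : E3} {y : ℝ} (h0 : 0 ≤ WW c W₀ M F b t x y) :
    deriv (gam c W₀ M F b t x) y
      = -(3 * max (1 - KK F b t x y) 0 ^ 2 * dm (WW c W₀ M F b t x y))
          * ∑ Q ∈ F, b Q t * deriv ll (y - Q.1) * fk (uu Q x)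
        - ph (KK F b t x y) * dm (WW c W₀ M F b t x y) ^ 2
          * ∑ Q ∈ F, b Q t * (W₀ * deriv (et c) (y - Q.1)) * fp M (uu Q x) := by
  have h : ∀ {f : ℝ → ℝ}, ContDiff ℝ 2 f → ∀ j : ℝ,
      HasDerivAt (fun y => f (y - j)) (deriv f (y - j)) y := fun hf j =>
    (hf.differentiable (by norm_num) _).hasDerivAt.comp_sub_const y j
  exact gam_has (K := KK F b t x) (W := WW c W₀ M F b t x)
    (HasDerivAt.fun_sum fun Q _ => ((h ll_cd _).const_mul _).mul_const _)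
    (HasDerivAt.fun_sum fun Q _ => (((h (et_cd c) _).const_mul _).const_mul _).mul_const _) h0

lemma gam_dt {t : ℝ} {x : E3} {y : ℝ} (h0 : 0 ≤ WW c W₀ M F b t x y)
    (h : ∀ Q ∈ F, DifferentiableAt ℝ (b Q) t) :
    deriv (fun s => gam c W₀ M F b s x y) t
      = -(3 * max (1 - KK F b t x y) 0 ^ 2 * dm (WW c W₀ M F b t x y))
          * ∑ Q ∈ F, deriv (b Q) t * ll (y - Q.1) * fk (uu Q x)
        - ph (KK F b t x y) * dm (WW c W₀ M F b t x y) ^ 2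
          * ∑ Q ∈ F, deriv (b Q) t * (W₀ * et c (y - Q.1)) * fp M (uu Q x) :=
  gam_has (K := fun s => KK F b s x y) (W := fun s => WW c W₀ M F b s x y)
    (HasDerivAt.fun_sum fun Q hQ => ((h Q hQ).hasDerivAt.mul_const _).mul_const _)
    (HasDerivAt.fun_sum fun Q hQ => ((h Q hQ).hasDerivAt.mul_const _).mul_const _) h0

/-- [WT] -/
theorem weight : P218UD.WeightStmtR := by
  intro c ε hc hε
  have hB := one_le_pB
  obtain ⟨E, hE⟩ : ∃ E, E = Real.exp (4 * c) := ⟨_, rfl⟩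
  have hE0 : 0 < E := hE ▸ Real.exp_pos _
  obtain ⟨A₁, hA₁⟩ : ∃ A₁, A₁ = 8 * pB * (18 * E + 3 * E ^ 2 / c) + 3 * pB * E * Real.exp 8 :=
    ⟨_, rfl⟩
  have hA0 : 0 < A₁ := by rw [hA₁]; positivity
  obtain ⟨W₀, hW₀⟩ : ∃ W₀, W₀ = 8 * A₁ / ε := ⟨_, rfl⟩
  have hW : 0 < W₀ := by rw [hW₀]; positivity
  obtain ⟨M, hM⟩ := exists_nat_ge (max 1 (128 * pB * ((2 + 1 / c) * W₀) / ε))
  have hM1 : (1 : ℝ) ≤ M := (le_max_left _ _).trans hM
  have hM1' : 1 ≤ M := by exact_mod_cast hM1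
  have hM2 := (le_max_right _ _).trans hM
  obtain ⟨a₁, ha₁⟩ : ∃ a₁, a₁ = A₁ / W₀ := ⟨_, rfl⟩
  obtain ⟨a₂, ha₂⟩ : ∃ a₂, a₂ = (2 + 1 / c) * W₀ * (4 * pB / M ^ 2) := ⟨_, rfl⟩
  have h₁ : 0 ≤ a₁ := by rw [ha₁]; positivity
  have h₂ : 0 ≤ a₂ := by rw [ha₂]; positivity
  obtain ⟨C₁, hC₁⟩ : ∃ C₁, C₁ = (3 * E + W₀) * (8 * pB) / c := ⟨_, rfl⟩
  have hC0 : 0 ≤ C₁ := by rw [hC₁]; positivity
  have he0 : ∀ x, 0 ≤ ee a₁ a₂ (M + 2) x := fun x =>
    add_nonneg (mul_nonneg h₁ (ind_nonneg _ _)) (mul_nonneg h₂ (sn_nonneg _ _))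
  have hC1 : 0 ≤ a₁ + a₂ * (4 * (((M + 2 : ℕ) : ℝ) + 1)) := by positivity
  -- the error density dominates the bounds for the derivatives of the profiles
  have hdom : ∀ (x : E3) (α₁ α₂ : ℝ), 0 ≤ α₁ → α₁ ≤ (18 * E + 3 * E ^ 2 / c) / W₀ → 0 ≤ α₂ →
      α₂ ≤ (2 + 1 / c) * W₀ → α₁ * gk (‖x‖ ^ 2) + α₂ * gp M (‖x‖ ^ 2) ≤ ee a₁ a₂ (M + 2) x := by
    intro x α₁ α₂ e1 e2 e3 e4
    have e5 : α₁ * (8 * pB) ≤ a₁ := by
      calc _ ≤ (18 * E + 3 * E ^ 2 / c) / W₀ * (8 * pB) :=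
            mul_le_mul_of_nonneg_right e2 (by positivity)
        _ = 8 * pB * (18 * E + 3 * E ^ 2 / c) / W₀ := by ring
        _ ≤ _ := by
            rw [ha₁, hA₁]
            gcongr
            exact le_add_of_nonneg_right (by positivity)
    have e6 : α₂ * (4 * pB / M ^ 2) ≤ a₂ := ha₂ ▸ mul_le_mul_of_nonneg_right e4 (by positivity)
    have e7 := mul_le_mul_of_nonneg_left (gk_le x) e1
    have e8 := mul_le_mul_of_nonneg_left (gp_le M x) e3
    have e9 := mul_le_mul_of_nonneg_right e5 (ind_nonneg 2 x)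
    have e10 := mul_le_mul_of_nonneg_right e6 (sn_nonneg (M + 2) x)
    unfold ee
    linarith
  refine ⟨2 ^ (M + 3), a₁ + a₂ * (4 * (((M + 2 : ℕ) : ℝ) + 1)) + C₁, ee a₁ a₂ (M + 2),
    one_le_pow₀ (by norm_num), by positivity, measurable_ee _ _ _, fun x => ⟨he0 x, ?_⟩,
    fun x hx => ?_, fun μ A hA hμ z r hr => ?_, fun F b J hJ hb2 hb => ?_⟩
  · have e1 := mul_le_mul_of_nonneg_left (ind_le_one 2 x) h₁
    have e2 := mul_le_mul_of_nonneg_left (sn_le (M + 2) x) h₂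
    unfold ee
    linarith
  · have e1 : (2 : ℝ) ≤ 2 ^ (M + 2) := le_self_pow₀ (by norm_num) (by omega)
    rw [pow_succ] at hx
    rw [ee, sn_zero _ (by linarith), ind, if_neg (by linarith)]
    simp
  · refine (lint_ee hμ hA z hr h₁ h₂ _).trans (ENNReal.ofReal_le_ofReal
      (mul_le_mul_of_nonneg_right ?_ hA))
    have e1 : 4 * a₁ = ε / 2 := by
      rw [ha₁, hW₀]
      field_simp
      norm_num
    have e2 : 4 * (((M + 2 : ℕ) : ℝ) + 1) * a₂ ≤ ε / 2 := by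
      rw [div_le_iff₀ hε] at hM2
      calc _ ≤ 4 * (4 * M) * a₂ := by
            refine mul_le_mul_of_nonneg_right ?_ h₂
            push_cast
            linarith
        _ = 128 * pB * ((2 + 1 / c) * W₀) / (2 * M) := by
            rw [ha₂]
            field_simp
            norm_num
        _ ≤ _ := by
            rw [div_le_iff₀ (by positivity)]
            linarith
    linarith
  refine ⟨gam c W₀ M F b, gam_cd hW hM1' hb2 hb, fun t ht x => ⟨fun y => ?_,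
    fun y Q hQ h1 h2 h3 h4 => ?_, fun y h => ?_, fun a G hG hact => ?_⟩⟩
  · have e1 := KK_nonneg hb ht x y
    have e2 := WW_nonneg (c := c) (M := M) hW hb ht x y
    have e3 : 0 ≤ ph (KK F b t x y) := pow_nonneg (le_max_right _ _) 3
    exact ⟨mul_nonneg e3 (dm_pos e2).le, mul_le_one₀ (pow_le_one₀ (le_max_right _ _)
      (max_le (by linarith) zero_le_one)) (dm_pos e2).le (dm_le_one e2)⟩
  · have hr := rQ_pos Q
    have e1 : uu Q x ≤ 1 := by
      refine pow_le_one₀ (norm_nonneg _) ?_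
      rw [norm_smul, norm_inv, Real.norm_of_nonneg hr.le, inv_mul_le_iff₀ hr]
      linarith
    have e2 : b Q t * ll (y - Q.1) * fk (uu Q x) ≤ KK F b t x y :=
      Finset.single_le_sum (f := fun Q : LQ => b Q t * ll (y - Q.1) * fk (uu Q x)) (fun Q hQ =>
        mul_nonneg (mul_nonneg (hb Q hQ t ht).1 (ll_nonneg _)) (rad_k.nonneg _)) hQ
    rw [h1, ll_one (by linarith) (by linarith), fk_one e1] at e2
    rw [gam, ph, max_eq_right (by linarith)]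
    norm_num
  · have e0 : ∀ Q ∈ F, b Q t * ll (y - Q.1) * fk (uu Q x) = 0
        ∧ b Q t * (W₀ * et c (y - Q.1)) * fp M (uu Q x) = 0 := fun Q hQ => by
      by_cases h2 : (Q.1 : ℝ) < y + 4
      · rcases h Q hQ h2 with e | e
        · simp [e]
        · simp [fk_zero (far e).2.le, fp_zero hM1' (far e).1]
      · have e1 := et_zero c (by linarith [not_lt.1 h2] : y - Q.1 ≤ -4)
        have e2 := ll_le_et hc (y - Q.1)
        rw [e1, mul_zero] at e2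
        simp [e1, le_antisymm e2 (ll_nonneg _)]
    rw [gam, KK, WW, Finset.sum_eq_zero fun Q hQ => (e0 Q hQ).1,
      Finset.sum_eq_zero fun Q hQ => (e0 Q hQ).2]
    simp [ph, dm]
  have hW0 := WW_nonneg (c := c) (M := M) hW hb ht x
  have hn₀ : ‖(EuclideanSpace.single 0 1 : E3)‖ = 1 := by simp
  refine ⟨fun y hy => ⟨?_, ?_⟩, fun n hn => ?_, ?_⟩
  · rw [gam_gradient hM1' (hW0 y)]
    refine ((dat hc hW hM1' hJ hb ht x hG hact hy hn₀).grad_sq rfl rfl).trans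
      (mul_le_mul_of_nonneg_left (Finset.sum_le_sum fun Q _ => ?_)
        (mul_nonneg (pow_nonneg (le_max_right _ _) 3) (dm_pos (hW0 y)).le))
    rw [← hE, ← mul_div_assoc, ← mul_div_assoc, ← add_div]
    refine div_le_div_of_nonneg_right (hdom _ _ _ (by positivity) ?_ (by positivity) ?_)
      (sq_nonneg _)
    · gcongr
      exact le_add_of_nonneg_right (by positivity)
    · gcongr
      exact le_add_of_nonneg_right (by positivity)
  · rw [gam_dy (hW0 y), Finset.mul_sum G]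
    refine (dat hc hW hM1' hJ hb ht x hG hact hy hn₀).lev rfl rfl
      (fun Q => mul_nonneg (Real.exp_pos _).le (div_nonneg (he0 _) (sq_nonneg _)))
      fun Q hk hη => ?_
    have e1 : -4 < y - Q.1 := by
      by_contra h'
      exact hη (et_zero c (not_lt.1 h'))
    have e2 : a₁ ≤ ee a₁ a₂ (M + 2) ((rQ Q)⁻¹ • (x - zQ Q)) := by
      rw [ee, ind_core (fk_ne hk), mul_one]
      exact le_add_of_nonneg_right (mul_nonneg h₂ (sn_nonneg _ _))
    have e3 : 3 * pB * E * Real.exp 8 / W₀ ≤ a₁ := by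
      rw [ha₁, hA₁]
      gcongr
      exact le_add_of_nonneg_left (by positivity)
    have e4 : 1 ≤ Real.exp 8 * (Real.exp (2 * y) / rQ Q ^ 2) := by
      rw [rQ, ← Real.exp_nat_mul, ← Real.exp_sub, ← Real.exp_add, Real.one_le_exp_iff]
      push_cast
      linarith
    rw [← hE]
    calc 3 * pB * E / W₀ ≤ 3 * pB * E / W₀ * (Real.exp 8 * (Real.exp (2 * y) / rQ Q ^ 2)) :=
          le_mul_of_one_le_right (by positivity) e4
      _ = 3 * pB * E * Real.exp 8 / W₀ * (Real.exp (2 * y) / rQ Q ^ 2) := by ring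
      _ ≤ ee a₁ a₂ (M + 2) ((rQ Q)⁻¹ • (x - zQ Q)) * (Real.exp (2 * y) / rQ Q ^ 2) :=
          mul_le_mul_of_nonneg_right (e3.trans e2) (by positivity)
      _ = _ := by ring
  · have hd : ∀ Q ∈ F, DifferentiableAt ℝ (b Q) t := fun Q hQ =>
      ((hb2 Q hQ).contDiffAt (hJ.mem_nhds ht)).differentiableAt (by norm_num)
    have hg : ∀ Q : LQ, 0 ≤ gk (uu Q x) / rQ Q ^ 2 ∧ 0 ≤ gp M (uu Q x) / rQ Q ^ 2 := fun Q =>
      ⟨div_nonneg (rad_k.g_nonneg _ (uq_nonneg _ _ _)) (sq_nonneg _),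
        div_nonneg ((rad_p hM1').g_nonneg _ (uq_nonneg _ _ _)) (sq_nonneg _)⟩
    refine (lint_le hc G (A := fun Q => 3 * E ^ 2 / W₀ * (gk (uu Q x) / rQ Q ^ 2)
      + W₀ * (gp M (uu Q x) / rQ Q ^ 2) + (3 * E + W₀) * |deriv (b Q) t|) (fun Q _ => ?_)
      (fun Q => (Q.1 : ℝ)) a fun y hy => ?_).trans
      (ENNReal.ofReal_le_ofReal (Finset.sum_le_sum fun Q _ => ?_))
    · have := hg Q
      have e1 := this.1
      have e2 := this.2
      positivity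
    · have e1 := (dat hc hW hM1' hJ hb ht x hG hact hy hn).heat (K := KK F b t x y)
        (W := WW c W₀ M F b t x y) rfl rfl
      have e2 := gam_tr hM1' (hW0 y) hn
      rw [gam_dt (hW0 y) hd, hE]
      exact le_trans (by linarith) e1
    · have e1 := hdom ((rQ Q)⁻¹ • (x - zQ Q)) (3 * E ^ 2 / c / W₀) (1 / c * W₀) (by positivity)
        (by gcongr; exact le_add_of_nonneg_left (by positivity)) (by positivity)
        (by gcongr; exact le_add_of_nonneg_left (by positivity))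
      have e2 := div_le_div_of_nonneg_right e1 (sq_nonneg (rQ Q))
      have e3 : (3 * E + W₀) / c ≤ a₁ + a₂ * (4 * (((M + 2 : ℕ) : ℝ) + 1)) + C₁ := by
        refine le_add_of_nonneg_of_le hC1 ?_
        rw [hC₁]
        gcongr
        exact le_mul_of_one_le_right (by positivity) (by linarith)
      have e4 := mul_le_mul_of_nonneg_right e3 (abs_nonneg (deriv (b Q) t))
      refine le_trans (le_of_eq ?_) (add_le_add e2 e4)
      unfold uu uq
      ring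
  · simp only [← ofReal_norm]
    refine (lint_le hc G (A := fun Q => (3 * E + W₀) * (8 * pB / rQ Q))
      (fun Q _ => by have := rQ_pos Q; positivity) (fun Q => (Q.1 : ℝ)) a fun y hy => ?_).trans
      (ENNReal.ofReal_le_ofReal (Finset.sum_le_sum fun Q _ => ?_))
    · rw [gam_gradient hM1' (hW0 y), hE]
      refine (dat hc hW hM1' hJ hb ht x hG hact hy hn₀).grad_le rfl rfl
        (fun Q => by have := rQ_pos Q; positivity) (fun Q => ?_) fun Q => ?_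
      · rw [div_pow]
        exact div_le_div_of_nonneg_right (gk_bd _) (sq_nonneg _)
      · rw [div_pow]
        exact div_le_div_of_nonneg_right (gp_bd hM1' (uq_nonneg _ _ _)) (sq_nonneg _)
    · calc _ = C₁ / rQ Q := by rw [hC₁]; ring
        _ ≤ _ := div_le_div_of_nonneg_right (le_add_of_nonneg_left hC1) (rQ_pos Q).le

end Vale.Agent.P218UI
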