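import Vale.Agent.P218UI.Err

/-! The algebraic estimates for the weight at a fixed point. -/

open Finset

namespace Vale.Agent.P218UI

open Vale.Agent.P218UA

lemma sum_act {ι : Type*} {F G : Finset ι} (h : G ⊆ F) {T U : ι → ℝ} (h1 : ∀ i ∈ G, T i ≤ U i)
    (h2 : ∀ i ∈ F, i ∉ G → T i ≤ 0) : ∑ i ∈ F, T i ≤ ∑ i ∈ G, U i := by
  classical
  rw [← sum_sdiff h]
  have : ∑ i ∈ F \ G, T i ≤ 0 := sum_nonpos fun i hi => h2 i (mem_sdiff.1 hi).1 (mem_sdiff.1 hi).2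
  linarith [sum_le_sum h1]

lemma norm_sum_sq_le {ι : Type*} (F : Finset ι) {a f g : ι → ℝ} {v : ι → E3}
    (hf : ∀ i ∈ F, 0 ≤ f i) (hg : ∀ i ∈ F, 0 ≤ g i)
    (h : ∀ i ∈ F, a i ^ 2 * ‖v i‖ ^ 2 ≤ f i * g i) :
    ‖∑ i ∈ F, a i • v i‖ ^ 2 ≤ (∑ i ∈ F, f i) * ∑ i ∈ F, g i := by
  refine (pow_le_pow_left₀ (norm_nonneg _) (norm_sum_le _ _) 2).trans
    (sum_sq_le_sum_mul_sum_of_sq_le_mul F hf hg fun i hi => ?_)
  rw [norm_smul, mul_pow, Real.norm_eq_abs, sq_abs]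
  exact h i hi

/-- the data at a fixed point of space-time and a fixed level -/
structure Dat {ι : Type*} (F G : Finset ι) (c B E W₀ : ℝ)
    (β β' k p l l' η η' m gk gp Tk Tp : ι → ℝ) (Dk Dp : ι → E3) : Prop where
  sub : G ⊆ F
  hc : 0 < c
  hB : 0 ≤ B
  hE : 0 ≤ E
  hW : 0 < W₀
  β0 : ∀ i ∈ F, 0 ≤ β i
  β1 : ∀ i ∈ F, β i ≤ 1
  k0 : ∀ i, 0 ≤ k i
  k1 : ∀ i, k i ≤ 1
  p0 : ∀ i, 0 ≤ p i
  p1 : ∀ i, p i ≤ 1
  l0 : ∀ i, 0 ≤ l i
  l1 : ∀ i, l i ≤ 1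
  η0 : ∀ i, 0 ≤ η i
  η1 : ∀ i, η i ≤ 1
  gk0 : ∀ i, 0 ≤ gk i
  gp0 : ∀ i, 0 ≤ gp i
  lη : ∀ i, l i ≤ E * η i
  dl : ∀ i, -l' i ≤ B * E * η i
  dη : ∀ i, -η' i ≤ c * η i
  ηm : ∀ i, η i ≤ m i
  lm : ∀ i, l i ≠ 0 → 1 ≤ E * m i
  dk : ∀ i, ‖Dk i‖ ^ 2 ≤ k i * gk i
  dp : ∀ i, ‖Dp i‖ ^ 2 ≤ p i * gp i
  tk : ∀ i, Tk i ≤ gk i
  tp : ∀ i, Tp i ≤ gp i
  core : ∀ i, gk i ≠ 0 ∨ k i ≠ 0 → p i = 1
  act : ∀ i ∈ F, i ∉ G → (β i = 0 ∧ β' i = 0) ∨ η i = 0 ∨ (k i = 0 ∧ p i = 0 ∧ gk i = 0 ∧ gp i = 0)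

namespace Dat

variable {ι : Type*} {F G : Finset ι} {c B E W₀ : ℝ}
  {β β' k p l l' η η' m gk gp Tk Tp : ι → ℝ} {Dk Dp : ι → E3}
  (h : Dat F G c B E W₀ β β' k p l l' η η' m gk gp Tk Tp Dk Dp)

include h

lemma K0 : 0 ≤ ∑ i ∈ F, β i * l i * k i :=
  sum_nonneg fun i hi => mul_nonneg (mul_nonneg (h.β0 i hi) (h.l0 i)) (h.k0 i)

lemma w0 {i : ι} (hi : i ∈ F) : 0 ≤ β i * (W₀ * η i) :=
  mul_nonneg (h.β0 i hi) (mul_nonneg h.hW.le (h.η0 i))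

lemma W0 : 0 ≤ ∑ i ∈ F, β i * (W₀ * η i) * p i :=
  sum_nonneg fun i hi => mul_nonneg (h.w0 hi) (h.p0 i)

lemma u1 : max (1 - ∑ i ∈ F, β i * l i * k i) 0 ≤ 1 := max_le (by linarith [h.K0]) zero_le_one

lemma l_zero {i : ι} (hi : η i = 0) : l i = 0 :=
  le_antisymm (by simpa [hi] using h.lη i) (h.l0 i)

lemma m0 (i : ι) : 0 ≤ m i := (h.η0 i).trans (h.ηm i)

lemma key {i : ι} (hi : i ∈ F) (hp : p i = 1) :
    dm (∑ i ∈ F, β i * (W₀ * η i) * p i) * (β i * η i) ≤ 1 / W₀ := by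
  have h1 : β i * (W₀ * η i) * p i ≤ ∑ i ∈ F, β i * (W₀ * η i) * p i :=
    single_le_sum (f := fun i => β i * (W₀ * η i) * p i)
      (fun i hi => mul_nonneg (h.w0 hi) (h.p0 i)) hi
  have h2 := dm_mul_le h.W0 h1
  rw [le_div_iff₀ h.hW]
  rw [hp] at h2
  linarith

/-- the square of the gradient -/
lemma grad_sq {K W : ℝ} (hK : K = ∑ i ∈ F, β i * l i * k i)
    (hW : W = ∑ i ∈ F, β i * (W₀ * η i) * p i) :
    ‖-((3 * max (1 - K) 0 ^ 2 * dm W) • ∑ i ∈ F, (β i * l i) • Dk i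
        + (ph K * dm W ^ 2) • ∑ i ∈ F, (β i * (W₀ * η i)) • Dp i)‖ ^ 2
      ≤ ph K * dm W * ∑ i ∈ G, (18 * E / W₀ * gk i + 2 * W₀ * gp i) := by
  have hW₀ := h.hW
  have hE := h.hE
  have hW0 : 0 ≤ W := hW ▸ h.W0
  have a0 : ∀ i ∈ F, 0 ≤ β i * l i * gk i := fun i hi =>
    mul_nonneg (mul_nonneg (h.β0 i hi) (h.l0 i)) (h.gk0 i)
  have b0 : ∀ i ∈ F, 0 ≤ β i * (W₀ * η i) * gp i := fun i hi => mul_nonneg (h.w0 hi) (h.gp0 i)
  have h1 : ‖∑ i ∈ F, (β i * l i) • Dk i‖ ^ 2 ≤ E / W₀ * W * ∑ i ∈ F, β i * l i * gk i := by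
    rw [hW, mul_sum F _ (E / W₀)]
    refine norm_sum_sq_le F (fun i hi => mul_nonneg (div_nonneg hE hW₀.le)
      (mul_nonneg (h.w0 hi) (h.p0 i))) a0 fun i hi => ?_
    by_cases hg : gk i = 0
    · have := h.dk i
      rw [hg, mul_zero] at this
      rw [hg, mul_zero, mul_zero]
      exact mul_nonpos_of_nonneg_of_nonpos (sq_nonneg _) this
    · have e1 : ‖Dk i‖ ^ 2 ≤ gk i := (h.dk i).trans (mul_le_of_le_one_left (h.gk0 i) (h.k1 i))
      have e2 : β i * l i ≤ E / W₀ * (β i * (W₀ * η i) * p i) := by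
        rw [h.core i (Or.inl hg)]
        calc β i * l i ≤ β i * (E * η i) := mul_le_mul_of_nonneg_left (h.lη i) (h.β0 i hi)
          _ = _ := by field_simp
      calc _ ≤ (β i * l i) ^ 2 * gk i := mul_le_mul_of_nonneg_left e1 (sq_nonneg _)
        _ = β i * l i * (β i * l i * gk i) := by ring
        _ ≤ _ := mul_le_mul_of_nonneg_right e2 (a0 i hi)
  have h2 : ‖∑ i ∈ F, (β i * (W₀ * η i)) • Dp i‖ ^ 2 ≤ W * ∑ i ∈ F, β i * (W₀ * η i) * gp i := by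
    rw [hW]
    refine norm_sum_sq_le F (fun i hi => mul_nonneg (h.w0 hi) (h.p0 i)) b0 fun i hi => ?_
    calc _ ≤ (β i * (W₀ * η i)) ^ 2 * (p i * gp i) :=
          mul_le_mul_of_nonneg_left (h.dp i) (sq_nonneg _)
      _ = _ := by ring
  have h3 : 18 * E / W₀ * ∑ i ∈ F, β i * l i * gk i + 2 * ∑ i ∈ F, β i * (W₀ * η i) * gp i
      ≤ ∑ i ∈ G, (18 * E / W₀ * gk i + 2 * W₀ * gp i) := by
    rw [mul_sum, mul_sum, ← sum_add_distrib]
    refine sum_act h.sub (fun i hi => ?_) fun i hi hi' => ?_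
    · have hi' := h.sub hi
      have e1 : β i * l i * gk i ≤ gk i :=
        mul_le_of_le_one_left (h.gk0 i) (mul_le_one₀ (h.β1 i hi') (h.l0 i) (h.l1 i))
      have e2 : β i * η i * gp i ≤ gp i :=
        mul_le_of_le_one_left (h.gp0 i) (mul_le_one₀ (h.β1 i hi') (h.η0 i) (h.η1 i))
      have e3 := mul_le_mul_of_nonneg_left e1 (by positivity : 0 ≤ 18 * E / W₀)
      nlinarith
    · rcases h.act i hi hi' with e | e | e
      · simp [e.1]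
      · simp [e, h.l_zero e]
      · simp [e.2.2.1, e.2.2.2]
  have hu1 : max (1 - K) 0 ≤ 1 := hK ▸ h.u1
  have hSk := sum_nonneg a0
  have hSp := sum_nonneg b0
  rw [norm_neg, ph]
  set u := max (1 - K) 0
  set D := dm W
  set X := ∑ i ∈ F, (β i * l i) • Dk i
  set Y := ∑ i ∈ F, (β i * (W₀ * η i)) • Dp i
  set Sk := ∑ i ∈ F, β i * l i * gk i
  set Sp := ∑ i ∈ F, β i * (W₀ * η i) * gp i
  have hu : 0 ≤ u := le_max_right _ _
  have hD : 0 ≤ D := (dm_pos hW0).le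
  have hD1 : D ≤ 1 := dm_le_one hW0
  have hDW : D * W ≤ 1 := dm_mul_le hW0 le_rfl
  have h4 : ‖(3 * u ^ 2 * D) • X + (u ^ 3 * D ^ 2) • Y‖
      ≤ 3 * u ^ 2 * D * ‖X‖ + u ^ 3 * D ^ 2 * ‖Y‖ := by
    refine (norm_add_le _ _).trans (le_of_eq ?_)
    rw [norm_smul, norm_smul, Real.norm_of_nonneg (by positivity),
      Real.norm_of_nonneg (by positivity)]
  have h5 : u * (D * ‖X‖ ^ 2) ≤ E / W₀ * Sk := by
    calc _ ≤ D * ‖X‖ ^ 2 := mul_le_of_le_one_left (by positivity) hu1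
      _ ≤ D * (E / W₀ * W * Sk) := mul_le_mul_of_nonneg_left h1 hD
      _ = D * W * (E / W₀ * Sk) := by ring
      _ ≤ _ := mul_le_of_le_one_left (by positivity) hDW
  have h6 : u ^ 3 * D ^ 2 * (D * ‖Y‖ ^ 2) ≤ Sp := by
    calc _ ≤ D * ‖Y‖ ^ 2 := mul_le_of_le_one_left (by positivity)
          (mul_le_one₀ (pow_le_one₀ hu hu1) (by positivity) (pow_le_one₀ hD hD1))
      _ ≤ D * (W * Sp) := mul_le_mul_of_nonneg_left h2 hD
      _ = D * W * Sp := by ring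
      _ ≤ _ := mul_le_of_le_one_left hSp hDW
  calc _ ≤ (3 * u ^ 2 * D * ‖X‖ + u ^ 3 * D ^ 2 * ‖Y‖) ^ 2 :=
        pow_le_pow_left₀ (norm_nonneg _) h4 2
    _ ≤ 2 * (3 * u ^ 2 * D * ‖X‖) ^ 2 + 2 * (u ^ 3 * D ^ 2 * ‖Y‖) ^ 2 := by
        nlinarith [sq_nonneg (3 * u ^ 2 * D * ‖X‖ - u ^ 3 * D ^ 2 * ‖Y‖)]
    _ = u ^ 3 * D * (18 * (u * (D * ‖X‖ ^ 2)) + 2 * (u ^ 3 * D ^ 2 * (D * ‖Y‖ ^ 2))) := by ring
    _ ≤ u ^ 3 * D * (18 * E / W₀ * Sk + 2 * Sp) := by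
        refine mul_le_mul_of_nonneg_left ?_ (by positivity)
        have : 18 * E / W₀ * Sk = 18 * (E / W₀ * Sk) := by ring
        linarith
    _ ≤ _ := mul_le_mul_of_nonneg_left h3 (by positivity)

/-- the derivative in the level -/
lemma lev {K W : ℝ} (hK : K = ∑ i ∈ F, β i * l i * k i)
    (hW : W = ∑ i ∈ F, β i * (W₀ * η i) * p i) {e : ι → ℝ} (he0 : ∀ i, 0 ≤ e i)
    (he : ∀ i, k i ≠ 0 → η i ≠ 0 → 3 * B * E / W₀ ≤ e i) :
    -(3 * max (1 - K) 0 ^ 2 * dm W) * ∑ i ∈ F, β i * l' i * k i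
      - ph K * dm W ^ 2 * ∑ i ∈ F, β i * (W₀ * η' i) * p i - c * (ph K * dm W) ≤ ∑ i ∈ G, e i := by
  have hW₀ := h.hW
  have hE := h.hE
  have hB := h.hB
  have hc := h.hc
  have hW0 : 0 ≤ W := hW ▸ h.W0
  have hu1 : max (1 - K) 0 ≤ 1 := hK ▸ h.u1
  have hph : 0 ≤ ph K := pow_nonneg (le_max_right _ _) 3
  have hD := (dm_pos hW0).le
  have h1 : -∑ i ∈ F, β i * (W₀ * η' i) * p i ≤ c * W := by
    rw [hW, mul_sum, ← sum_neg_distrib]
    refine sum_le_sum fun i hi => ?_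
    have := mul_le_mul_of_nonneg_left (h.dη i)
      (mul_nonneg (mul_nonneg (h.β0 i hi) hW₀.le) (h.p0 i))
    linarith
  have h2 : -(ph K * dm W ^ 2 * ∑ i ∈ F, β i * (W₀ * η' i) * p i) ≤ c * (ph K * dm W) := by
    calc _ = ph K * dm W ^ 2 * -∑ i ∈ F, β i * (W₀ * η' i) * p i := by ring
      _ ≤ ph K * dm W ^ 2 * (c * W) := mul_le_mul_of_nonneg_left h1 (by positivity)
      _ = c * (ph K * dm W) * (dm W * W) := by ring
      _ ≤ _ := mul_le_of_le_one_right (by positivity) (dm_mul_le hW0 le_rfl)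
  have h3 : -(3 * max (1 - K) 0 ^ 2 * dm W) * ∑ i ∈ F, β i * l' i * k i ≤ ∑ i ∈ G, e i := by
    have hu2 : max (1 - K) 0 ^ 2 ≤ 1 := pow_le_one₀ (le_max_right _ _) hu1
    have e0 : ∀ i ∈ F, -(3 * max (1 - K) 0 ^ 2 * dm W) * (β i * l' i * k i)
        ≤ 3 * B * E * k i * (dm W * (β i * η i)) := fun i hi => by
      have a1 : 0 ≤ dm W * β i * k i := mul_nonneg (mul_nonneg hD (h.β0 i hi)) (h.k0 i)
      have a2 : 0 ≤ B * E * η i := mul_nonneg (by positivity) (h.η0 i)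
      calc _ = 3 * (dm W * β i * k i) * (max (1 - K) 0 ^ 2 * -l' i) := by ring
        _ ≤ 3 * (dm W * β i * k i) * (B * E * η i) := by
            refine mul_le_mul_of_nonneg_left ?_ (by positivity)
            exact (mul_le_mul_of_nonneg_left (h.dl i) (sq_nonneg _)).trans
              (mul_le_of_le_one_left a2 hu2)
        _ = _ := by ring
    rw [mul_sum]
    refine sum_act h.sub (fun i hi => (e0 i (h.sub hi)).trans ?_) fun i hi hi' => (e0 i hi).trans ?_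
    · by_cases hk : k i = 0
      · simpa [hk] using he0 i
      by_cases hη : η i = 0
      · simpa [hη] using he0 i
      have a1 := h.key (h.sub hi) (h.core i (Or.inr hk))
      rw [← hW] at a1
      have a2 : 3 * B * E * k i ≤ 3 * B * E := mul_le_of_le_one_right (by positivity) (h.k1 i)
      have a3 : 0 ≤ dm W * (β i * η i) := mul_nonneg hD (mul_nonneg (h.β0 i (h.sub hi)) (h.η0 i))
      calc _ ≤ 3 * B * E * (1 / W₀) := mul_le_mul a2 a1 a3 (by positivity)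
        _ = 3 * B * E / W₀ := by ring
        _ ≤ _ := he i hk hη
    · rcases h.act i hi hi' with e | e | e
      · simp [e.1]
      · simp [e]
      · simp [e.1]
  linarith

/-- the heat operator -/
lemma heat {K W : ℝ} (hK : K = ∑ i ∈ F, β i * l i * k i)
    (hW : W = ∑ i ∈ F, β i * (W₀ * η i) * p i) :
    -(3 * max (1 - K) 0 ^ 2 * dm W) * ∑ i ∈ F, β' i * l i * k i
      - ph K * dm W ^ 2 * ∑ i ∈ F, β' i * (W₀ * η i) * p i
      + (3 * max (1 - K) 0 ^ 2 * dm W * ∑ i ∈ F, β i * l i * Tk i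
        + ph K * dm W ^ 2 * ∑ i ∈ F, β i * (W₀ * η i) * Tp i)
      ≤ ∑ i ∈ G, (3 * E ^ 2 / W₀ * gk i + W₀ * gp i + (3 * E + W₀) * |β' i|) * m i := by
  have hW₀ := h.hW
  have hE := h.hE
  have hW0 : 0 ≤ W := hW ▸ h.W0
  have hu1 : max (1 - K) 0 ≤ 1 := hK ▸ h.u1
  have hu2 : max (1 - K) 0 ^ 2 ≤ 1 := pow_le_one₀ (le_max_right _ _) hu1
  have hD := (dm_pos hW0).le
  have hD1 := dm_le_one hW0
  have hb0 : 0 ≤ ph K * dm W ^ 2 := mul_nonneg (pow_nonneg (le_max_right _ _) 3) (sq_nonneg _)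
  have hb1 : ph K * dm W ^ 2 ≤ 1 :=
    mul_le_one₀ (pow_le_one₀ (le_max_right _ _) hu1) (sq_nonneg _) (pow_le_one₀ hD hD1)
  have ha1 : max (1 - K) 0 ^ 2 * dm W ≤ 1 := mul_le_one₀ hu2 hD hD1
  have hkey : ∀ i ∈ F, p i = 1 → dm W * (β i * η i) ≤ 1 / W₀ := fun i hi hp => hW ▸ h.key hi hp
  have hu0 : 0 ≤ max (1 - K) 0 ^ 2 := sq_nonneg _
  generalize ph K * dm W ^ 2 = b at hb0 hb1 ⊢
  generalize max (1 - K) 0 ^ 2 = u at hu0 hu2 ha1 ⊢
  generalize dm W = D at hD hD1 ha1 hkey ⊢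
  have e0 : ∀ i ∈ F, -(3 * u * D) * (β' i * l i * k i) - b * (β' i * (W₀ * η i) * p i)
      + (3 * u * D * (β i * l i * Tk i) + b * (β i * (W₀ * η i) * Tp i))
      ≤ 3 * |β' i| * (l i * k i) + W₀ * |β' i| * (η i * p i) + 3 * (D * β i * l i * gk i)
        + W₀ * (β i * η i * gp i) := fun i hi => by
    have a0 := abs_nonneg (β' i)
    have a1 := neg_le_abs (β' i)
    have a2 : 0 ≤ l i * k i := mul_nonneg (h.l0 i) (h.k0 i)
    have a3 : 0 ≤ η i * p i := mul_nonneg (h.η0 i) (h.p0 i)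
    have a4 : u * D * -β' i ≤ |β' i| :=
      (mul_le_mul_of_nonneg_left a1 (by positivity)).trans (mul_le_of_le_one_left a0 ha1)
    have a5 : b * -β' i ≤ |β' i| :=
      (mul_le_mul_of_nonneg_left a1 hb0).trans (mul_le_of_le_one_left a0 hb1)
    have a6 : u * Tk i ≤ gk i :=
      (mul_le_mul_of_nonneg_left (h.tk i) hu0).trans (mul_le_of_le_one_left (h.gk0 i) hu2)
    have a7 : b * Tp i ≤ gp i :=
      (mul_le_mul_of_nonneg_left (h.tp i) hb0).trans (mul_le_of_le_one_left (h.gp0 i) hb1)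
    have b4 := mul_le_mul_of_nonneg_right a4 a2
    have b5 := mul_le_mul_of_nonneg_right a5 (mul_nonneg hW₀.le a3)
    have b6 := mul_le_mul_of_nonneg_left a6 (mul_nonneg (mul_nonneg hD (h.β0 i hi)) (h.l0 i))
    have b7 := mul_le_mul_of_nonneg_left a7 (h.w0 hi)
    linarith
  simp only [mul_sum, ← sum_sub_distrib, ← sum_add_distrib]
  refine sum_act h.sub (fun i hi => (e0 i (h.sub hi)).trans ?_) fun i hi hi' => (e0 i hi).trans ?_
  · have hi' := h.sub hi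
    have a0 := abs_nonneg (β' i)
    have a1 : l i * k i ≤ E * m i := (mul_le_of_le_one_right (h.l0 i) (h.k1 i)).trans
      ((h.lη i).trans (mul_le_mul_of_nonneg_left (h.ηm i) hE))
    have a2 : η i * p i ≤ m i := (mul_le_of_le_one_right (h.η0 i) (h.p1 i)).trans (h.ηm i)
    have a3 : β i * η i * gp i ≤ m i * gp i := mul_le_mul_of_nonneg_right
      ((mul_le_of_le_one_left (h.η0 i) (h.β1 i hi')).trans (h.ηm i)) (h.gp0 i)
    have a4 : D * β i * l i * gk i ≤ E ^ 2 / W₀ * m i * gk i := by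
      by_cases hg : gk i = 0
      · simp [hg]
      refine mul_le_mul_of_nonneg_right ?_ (h.gk0 i)
      by_cases hl : l i = 0
      · rw [hl, mul_zero]
        exact mul_nonneg (by positivity) (h.m0 i)
      calc _ ≤ D * β i * (E * η i) :=
            mul_le_mul_of_nonneg_left (h.lη i) (mul_nonneg hD (h.β0 i hi'))
        _ = E * (D * (β i * η i)) := by ring
        _ ≤ E * (1 / W₀) := mul_le_mul_of_nonneg_left (hkey i hi' (h.core i (Or.inl hg))) hE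
        _ ≤ E * (1 / W₀) * (E * m i) := le_mul_of_one_le_right (by positivity) (h.lm i hl)
        _ = _ := by ring
    have b1 := mul_le_mul_of_nonneg_left a1 a0
    have b2 := mul_le_mul_of_nonneg_left a2 (mul_nonneg hW₀.le a0)
    have b3 := mul_le_mul_of_nonneg_left a3 hW₀.le
    have b4 : 3 * E ^ 2 / W₀ * gk i * m i = 3 * (E ^ 2 / W₀ * m i * gk i) := by ring
    nlinarith
  · rcases h.act i hi hi' with e | e | e
    · simp [e.1, e.2]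
    · simp [e, h.l_zero e]
    · simp [e.1, e.2.1, e.2.2.1, e.2.2.2]

/-- the norm of the gradient -/
lemma grad_le {K W : ℝ} (hK : K = ∑ i ∈ F, β i * l i * k i)
    (hW : W = ∑ i ∈ F, β i * (W₀ * η i) * p i) {N : ι → ℝ} (hN : ∀ i, 0 ≤ N i)
    (hk : ∀ i, gk i ≤ N i ^ 2) (hp : ∀ i, gp i ≤ N i ^ 2) :
    ‖-((3 * max (1 - K) 0 ^ 2 * dm W) • ∑ i ∈ F, (β i * l i) • Dk i
        + (ph K * dm W ^ 2) • ∑ i ∈ F, (β i * (W₀ * η i)) • Dp i)‖
      ≤ ∑ i ∈ G, (3 * E + W₀) * N i * m i := by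
  have hW₀ := h.hW
  have hE := h.hE
  have hW0 : 0 ≤ W := hW ▸ h.W0
  have hu1 : max (1 - K) 0 ≤ 1 := hK ▸ h.u1
  have hD := (dm_pos hW0).le
  have hD1 := dm_le_one hW0
  have hb0 : 0 ≤ ph K * dm W ^ 2 := mul_nonneg (pow_nonneg (le_max_right _ _) 3) (sq_nonneg _)
  have hb1 : ph K * dm W ^ 2 ≤ 1 :=
    mul_le_one₀ (pow_le_one₀ (le_max_right _ _) hu1) (sq_nonneg _) (pow_le_one₀ hD hD1)
  have ha1 : max (1 - K) 0 ^ 2 * dm W ≤ 1 := mul_le_one₀ (pow_le_one₀ (le_max_right _ _) hu1) hD hD1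
  have h1 : ‖∑ i ∈ F, (β i * l i) • Dk i‖ ≤ ∑ i ∈ F, β i * l i * ‖Dk i‖ :=
    (norm_sum_le _ _).trans (le_of_eq (sum_congr rfl fun i hi => by
      rw [norm_smul, Real.norm_of_nonneg (mul_nonneg (h.β0 i hi) (h.l0 i))]))
  have h2 : ‖∑ i ∈ F, (β i * (W₀ * η i)) • Dp i‖ ≤ ∑ i ∈ F, β i * (W₀ * η i) * ‖Dp i‖ :=
    (norm_sum_le _ _).trans (le_of_eq (sum_congr rfl fun i hi => by
      rw [norm_smul, Real.norm_of_nonneg (h.w0 hi)]))
  have h3 : 3 * ∑ i ∈ F, β i * l i * ‖Dk i‖ + ∑ i ∈ F, β i * (W₀ * η i) * ‖Dp i‖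
      ≤ ∑ i ∈ G, (3 * E + W₀) * N i * m i := by
    rw [mul_sum, ← sum_add_distrib]
    refine sum_act h.sub (fun i hi => ?_) fun i hi hi' => ?_
    · have hi' := h.sub hi
      have a1 : ‖Dk i‖ ≤ N i := (pow_le_pow_iff_left₀ (norm_nonneg _) (hN i) two_ne_zero).1
        ((h.dk i).trans ((mul_le_of_le_one_left (h.gk0 i) (h.k1 i)).trans (hk i)))
      have a2 : ‖Dp i‖ ≤ N i := (pow_le_pow_iff_left₀ (norm_nonneg _) (hN i) two_ne_zero).1
        ((h.dp i).trans ((mul_le_of_le_one_left (h.gp0 i) (h.p1 i)).trans (hp i)))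
      have a3 : β i * l i ≤ E * m i := (mul_le_of_le_one_left (h.l0 i) (h.β1 i hi')).trans
        ((h.lη i).trans (mul_le_mul_of_nonneg_left (h.ηm i) hE))
      have a4 : β i * (W₀ * η i) ≤ W₀ * m i :=
        (mul_le_of_le_one_left (mul_nonneg hW₀.le (h.η0 i)) (h.β1 i hi')).trans
          (mul_le_mul_of_nonneg_left (h.ηm i) hW₀.le)
      have b1 := mul_le_mul a3 a1 (norm_nonneg _) (mul_nonneg hE (h.m0 i))
      have b2 := mul_le_mul a4 a2 (norm_nonneg _) (mul_nonneg hW₀.le (h.m0 i))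
      nlinarith
    · rcases h.act i hi hi' with e | e | e
      · simp [e.1]
      · simp [e, h.l_zero e]
      · have a1 := h.dk i
        have a2 := h.dp i
        rw [e.1, zero_mul] at a1
        rw [e.2.1, zero_mul] at a2
        simp [pow_eq_zero_iff two_ne_zero |>.1 (le_antisymm a1 (sq_nonneg _)),
          pow_eq_zero_iff two_ne_zero |>.1 (le_antisymm a2 (sq_nonneg _))]
  rw [norm_neg]
  refine (norm_add_le _ _).trans (le_trans ?_ h3)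
  rw [norm_smul, norm_smul, Real.norm_of_nonneg (by positivity), Real.norm_of_nonneg hb0]
  have a1 := mul_le_mul ha1 h1 (norm_nonneg _) zero_le_one
  have a2 := mul_le_mul hb1 h2 (norm_nonneg _) zero_le_one
  linarith

end Dat

end Vale.Agent.P218UI
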