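import Vale.Agent.P218UI.Rad
import Mathlib.Analysis.SpecialFunctions.ImproperIntegrals

/-! The error density and the integrals over the level. -/

open MeasureTheory Set Filter Topology Metric
open scoped ENNReal

namespace Vale.Agent.P218UI

open Vale.Agent.P218UA

/-- the indicator function of a closed ball -/
noncomputable def ind (ρ : ℝ) (x : E3) : ℝ := if ‖x‖ ≤ ρ then 1 else 0

lemma ind_nonneg (ρ : ℝ) (x : E3) : 0 ≤ ind ρ x := by
  unfold ind
  split_ifs <;> norm_num

lemma ind_le_one (ρ : ℝ) (x : E3) : ind ρ x ≤ 1 := by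
  unfold ind
  split_ifs <;> norm_num

lemma measurable_ind (ρ : ℝ) : Measurable (ind ρ) :=
  Measurable.ite (measurableSet_le measurable_norm measurable_const) measurable_const
    measurable_const

lemma lint_ind {μ : Measure E3} {A : ℝ} (h : AR μ A) (z : E3) {r ρ a : ℝ} (hr : 0 < r)
    (hρ : 0 < ρ) (ha : 0 ≤ a) : ∫⁻ x, ENNReal.ofReal (a * ind ρ (r⁻¹ • (x - z)) / r ^ 2) ∂μ
      ≤ ENNReal.ofReal (a * ρ ^ 2 * A) := by
  calc _ ≤ ∫⁻ x, (closedBall z (ρ * r)).indicator (fun _ => ENNReal.ofReal (a / r ^ 2)) x ∂μ := by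
        refine lintegral_mono fun x => ?_
        unfold ind
        split_ifs with hx
        · rw [indicator_of_mem, mul_one]
          rw [norm_smul, norm_inv, Real.norm_eq_abs, abs_of_pos hr, inv_mul_le_iff₀ hr] at hx
          rw [mem_closedBall, dist_eq_norm]
          linarith
        · simp
    _ = ENNReal.ofReal (a / r ^ 2) * μ (closedBall z (ρ * r)) :=
        lintegral_indicator_const measurableSet_closedBall _
    _ ≤ ENNReal.ofReal (a / r ^ 2) * ENNReal.ofReal (A * (ρ * r) ^ 2) := by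
        gcongr
        exact h z _ (by positivity)
    _ = _ := by
        rw [← ENNReal.ofReal_mul (by positivity)]
        congr 1
        field_simp

/-- the dyadic majorant of `1 / (1 + |x|²)` on the ball of radius `2 ^ n` -/
noncomputable def sn (n : ℕ) (x : E3) : ℝ :=
  ∑ i ∈ Finset.range (n + 1), 4 / 4 ^ i * ind (2 ^ i) x

lemma sn_nonneg (n : ℕ) (x : E3) : 0 ≤ sn n x :=
  Finset.sum_nonneg fun _ _ => mul_nonneg (by positivity) (ind_nonneg _ _)

lemma sn_le (n : ℕ) (x : E3) : sn n x ≤ 4 * (n + 1) := by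
  calc _ ≤ ∑ i ∈ Finset.range (n + 1), (4 : ℝ) := Finset.sum_le_sum fun i _ => by
        have h1 : (4 : ℝ) / 4 ^ i ≤ 4 := div_le_self (by norm_num) (one_le_pow₀ (by norm_num))
        exact (mul_le_of_le_one_right (by positivity) (ind_le_one _ _)).trans h1
    _ = _ := by simp; ring

lemma four_pow (n : ℕ) : (4 : ℝ) ^ n = (2 ^ n) ^ 2 := by
  rw [← pow_mul, mul_comm, pow_mul]
  norm_num

lemma inv_le_sn (n : ℕ) {x : E3} (hx : ‖x‖ ^ 2 ≤ 4 ^ n) : 1 / (1 + ‖x‖ ^ 2) ≤ sn n x := by
  induction n with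
  | zero =>
    have h1 : ‖x‖ ≤ 1 := by nlinarith [norm_nonneg x]
    have h2 : 1 / (1 + ‖x‖ ^ 2) ≤ 1 := div_le_self (by norm_num) (by nlinarith [norm_nonneg x])
    simp only [sn, zero_add, Finset.range_one, Finset.sum_singleton, pow_zero, ind, if_pos h1]
    linarith
  | succ n ih =>
    rw [sn, Finset.sum_range_succ]
    by_cases h : ‖x‖ ^ 2 ≤ 4 ^ n
    · have : 0 ≤ 4 / 4 ^ (n + 1) * ind (2 ^ (n + 1)) x := mul_nonneg (by positivity) (ind_nonneg _ _)
      exact (ih h).trans (le_add_of_nonneg_right this)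
    · have h1 : ‖x‖ ≤ 2 ^ (n + 1) := by
        rw [four_pow] at hx
        exact (pow_le_pow_iff_left₀ (norm_nonneg _) (by positivity) two_ne_zero).1 hx
      have h2 : 1 / (1 + ‖x‖ ^ 2) ≤ 4 / 4 ^ (n + 1) := by
        rw [div_le_div_iff₀ (by positivity) (by positivity), pow_succ]
        nlinarith
      rw [ind, if_pos h1, mul_one]
      exact h2.trans (le_add_of_nonneg_left (sn_nonneg n x))

lemma sn_zero (n : ℕ) {x : E3} (hx : 2 ^ n < ‖x‖) : sn n x = 0 := by
  refine Finset.sum_eq_zero fun i hi => ?_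
  have : (2 : ℝ) ^ i ≤ 2 ^ n :=
    pow_le_pow_right₀ (by norm_num) (Nat.lt_succ_iff.1 (Finset.mem_range.1 hi))
  rw [ind, if_neg (by linarith), mul_zero]

/-- the error density -/
noncomputable def ee (a₁ a₂ : ℝ) (n : ℕ) (x : E3) : ℝ := a₁ * ind 2 x + a₂ * sn n x

lemma measurable_ee (a₁ a₂ : ℝ) (n : ℕ) : Measurable (ee a₁ a₂ n) :=
  ((measurable_ind 2).const_mul _).add
    ((Finset.measurable_sum _ fun _ _ => (measurable_ind _).const_mul _).const_mul _)

lemma lint_ee {μ : Measure E3} {A : ℝ} (h : AR μ A) (hA : 0 ≤ A) (z : E3) {r a₁ a₂ : ℝ}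
    (hr : 0 < r) (h₁ : 0 ≤ a₁) (h₂ : 0 ≤ a₂) (n : ℕ) :
    ∫⁻ x, ENNReal.ofReal (ee a₁ a₂ n (r⁻¹ • (x - z)) / r ^ 2) ∂μ
      ≤ ENNReal.ofReal ((4 * a₁ + 4 * (n + 1) * a₂) * A) := by
  have hm : ∀ a ρ : ℝ, Measurable fun x : E3 =>
      ENNReal.ofReal (a * ind ρ (r⁻¹ • (x - z)) / r ^ 2) := fun a ρ =>
    ((((measurable_ind ρ).comp ((measurable_id.sub_const z).const_smul r⁻¹)).const_mul a).div_const
      _).ennreal_ofReal
  calc _ = ∫⁻ x, (ENNReal.ofReal (a₁ * ind 2 (r⁻¹ • (x - z)) / r ^ 2) + ∑ i ∈ Finset.range (n + 1),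
        ENNReal.ofReal (a₂ * (4 / 4 ^ i) * ind (2 ^ i) (r⁻¹ • (x - z)) / r ^ 2)) ∂μ := by
        refine lintegral_congr fun x => ?_
        have h3 : ∀ i ∈ Finset.range (n + 1),
            0 ≤ a₂ * (4 / 4 ^ i) * ind (2 ^ i) (r⁻¹ • (x - z)) / r ^ 2 := fun i _ =>
          div_nonneg (mul_nonneg (by positivity) (ind_nonneg _ _)) (by positivity)
        rw [← ENNReal.ofReal_sum_of_nonneg h3, ← ENNReal.ofReal_add
          (div_nonneg (mul_nonneg h₁ (ind_nonneg _ _)) (by positivity)) (Finset.sum_nonneg h3)]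
        congr 1
        simp only [ee, sn, add_div, Finset.mul_sum, Finset.sum_div, mul_assoc]
    _ ≤ ENNReal.ofReal (a₁ * 2 ^ 2 * A)
          + ∑ i ∈ Finset.range (n + 1), ENNReal.ofReal (a₂ * (4 / 4 ^ i) * (2 ^ i) ^ 2 * A) := by
        rw [lintegral_add_left (hm _ _), lintegral_finsetSum _ fun i _ => hm _ _]
        exact add_le_add (lint_ind h z hr two_pos h₁)
          (Finset.sum_le_sum fun i _ => lint_ind h z hr (by positivity) (by positivity))
    _ = _ := by
        have : ∀ i : ℕ, a₂ * (4 / 4 ^ i) * (2 ^ i) ^ 2 * A = 4 * a₂ * A := fun i => by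
          rw [← four_pow]
          field_simp
        simp only [this]
        rw [← ENNReal.ofReal_sum_of_nonneg fun _ _ => by positivity,
          ← ENNReal.ofReal_add (by positivity) (by positivity)]
        congr 1
        simp
        ring

lemma measurable_mj (c : ℝ) : Measurable (mj c) :=
  Measurable.ite measurableSet_Ioi (by fun_prop) measurable_const

lemma lint_mj {c : ℝ} (hc : 0 < c) (j : ℝ) :
    ∫⁻ y, ENNReal.ofReal (mj c (y - j)) = ENNReal.ofReal (1 / c) := by
  rw [lintegral_sub_right_eq_self (fun y => ENNReal.ofReal (mj c y)) j]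
  have h1 : (fun y => ENNReal.ofReal (mj c y)) = (Ioi (-4 : ℝ)).indicator
      fun y => ENNReal.ofReal (Real.exp (-c * 4) * Real.exp (-c * y)) := by
    ext y
    unfold mj
    split_ifs with h
    · rw [indicator_of_mem (mem_Ioi.2 h), ← Real.exp_add]
      congr 2
      ring
    · rw [indicator_of_notMem (by simpa using h), ENNReal.ofReal_zero]
  rw [h1, lintegral_indicator measurableSet_Ioi, ← ofReal_integral_eq_lintegral_ofReal
    ((exp_neg_integrableOn_Ioi _ hc).const_mul _) (Eventually.of_forall fun y => by positivity),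
    integral_const_mul, integral_exp_mul_Ioi (by linarith)]
  congr 1
  field_simp
  rw [← Real.exp_add]
  simp

lemma lint_le {ι : Type*} {c : ℝ} (hc : 0 < c) (G : Finset ι) {A : ι → ℝ} (hA : ∀ i ∈ G, 0 ≤ A i)
    (j : ι → ℝ) (a : ℝ) {f : ℝ → ℝ} (hf : ∀ y, y ≤ a → f y ≤ ∑ i ∈ G, A i * mj c (y - j i)) :
    ∫⁻ y in Iic a, ENNReal.ofReal (f y) ≤ ENNReal.ofReal (∑ i ∈ G, A i / c) := by
  have hm : ∀ i, Measurable fun y => ENNReal.ofReal (mj c (y - j i)) := fun i =>
    ((measurable_mj c).comp (measurable_id.sub_const _)).ennreal_ofReal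
  calc _ ≤ ∫⁻ y in Iic a, ∑ i ∈ G, ENNReal.ofReal (A i) * ENNReal.ofReal (mj c (y - j i)) := by
        refine setLIntegral_mono' measurableSet_Iic fun y hy => ?_
        refine (ENNReal.ofReal_le_ofReal (hf y hy)).trans (le_of_eq ?_)
        rw [ENNReal.ofReal_sum_of_nonneg fun i hi => mul_nonneg (hA i hi) (mj_nonneg _ _)]
        exact Finset.sum_congr rfl fun i hi => ENNReal.ofReal_mul (hA i hi)
    _ ≤ ∫⁻ y, ∑ i ∈ G, ENNReal.ofReal (A i) * ENNReal.ofReal (mj c (y - j i)) :=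
        setLIntegral_le_lintegral _ _
    _ = _ := by
        rw [lintegral_finsetSum _ fun i _ => (hm i).const_mul _,
          ENNReal.ofReal_sum_of_nonneg fun i hi => div_nonneg (hA i hi) hc.le]
        refine Finset.sum_congr rfl fun i hi => ?_
        rw [lintegral_const_mul _ (hm i), lint_mj hc, ← ENNReal.ofReal_mul (hA i hi)]
        congr 1
        ring

end Vale.Agent.P218UI
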