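import Vale.Agent.P218UM.Heat

/-! One-dimensional profiles for the weight function. -/

open Set Filter Topology
open scoped ContDiff

namespace Vale.Agent.P218UI

/-- a smooth decreasing profile, `1` on `(-∞, 0]` and `0` on `[1, ∞)` -/
noncomputable def pf (s : ℝ) : ℝ := Real.smoothTransition (1 - s) ^ 2

/-- the derivative of `pf` -/
noncomputable def pf1 : ℝ → ℝ := deriv pf

/-- the second derivative of `pf` -/
noncomputable def pf2 : ℝ → ℝ := deriv pf1

lemma pf_cd (n : ℕ∞) : ContDiff ℝ n pf :=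
  (Real.smoothTransition.contDiff.comp (contDiff_const.sub contDiff_id)).pow 2

lemma pf_cd2 : ContDiff ℝ 2 pf := pf_cd 2

lemma pf1_cd : ContDiff ℝ 1 pf1 := by
  have := pf_cd2
  rw [show (2 : WithTop ℕ∞) = 1 + 1 from rfl, contDiff_succ_iff_deriv] at this
  exact this.2.2

lemma pf_has (s : ℝ) : HasDerivAt pf (pf1 s) s :=
  (pf_cd2.differentiable (by norm_num) s).hasDerivAt

lemma pf1_has (s : ℝ) : HasDerivAt pf1 (pf2 s) s :=
  (pf1_cd.differentiable (by norm_num) s).hasDerivAt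

lemma pf2_cont : Continuous pf2 := pf1_cd.continuous_deriv le_rfl

lemma pf_one {s : ℝ} (h : s ≤ 0) : pf s = 1 := by
  rw [pf, Real.smoothTransition.one_of_one_le (by linarith), one_pow]

lemma pf_zero {s : ℝ} (h : 1 ≤ s) : pf s = 0 := by
  rw [pf, Real.smoothTransition.zero_of_nonpos (by linarith)]
  norm_num

lemma pf_nonneg (s : ℝ) : 0 ≤ pf s := sq_nonneg _

lemma pf_le_one (s : ℝ) : pf s ≤ 1 :=
  pow_le_one₀ (Real.smoothTransition.nonneg _) (Real.smoothTransition.le_one _)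

lemma pf_anti : Antitone pf := fun _ _ h =>
  pow_le_pow_left₀ (Real.smoothTransition.nonneg _)
    (Real.smoothTransition.monotone (by linarith)) 2

lemma pf1_nonpos (s : ℝ) : pf1 s ≤ 0 := pf_anti.deriv_nonpos

/-- a function which is constant on both sides of `[0, 1]` has derivative zero there -/
lemma deriv_off {f : ℝ → ℝ} {a b : ℝ} (h0 : ∀ s < 0, f s = a) (h1 : ∀ s > 1, f s = b) {s : ℝ}
    (hs : s < 0 ∨ 1 < s) : deriv f s = 0 := by
  rcases hs with hs | hs
  · have : f =ᶠ[𝓝 s] fun _ => a := by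
      filter_upwards [gt_mem_nhds hs] with t ht using h0 t ht
    rw [this.deriv_eq, deriv_const]
  · have : f =ᶠ[𝓝 s] fun _ => b := by
      filter_upwards [lt_mem_nhds hs] with t ht using h1 t ht
    rw [this.deriv_eq, deriv_const]

lemma bdd_off {f : ℝ → ℝ} (hf : Continuous f) (h : ∀ s, s < 0 ∨ 1 < s → f s = 0) :
    ∃ B, 0 ≤ B ∧ ∀ s, |f s| ≤ B := by
  obtain ⟨B, hB⟩ := (isCompact_Icc (a := (0 : ℝ)) (b := 1)).exists_bound_of_continuousOn
    hf.continuousOn
  refine ⟨max B 0, le_max_right _ _, fun s => ?_⟩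
  by_cases hs : s < 0 ∨ 1 < s
  · rw [h s hs, abs_zero]
    exact le_max_right _ _
  · push Not at hs
    exact (hB s hs).trans (le_max_left _ _)

lemma pf1_off {s : ℝ} (hs : s < 0 ∨ 1 < s) : pf1 s = 0 :=
  deriv_off (fun _ h => pf_one h.le) (fun _ h => pf_zero h.le) hs

lemma pf2_off {s : ℝ} (hs : s < 0 ∨ 1 < s) : pf2 s = 0 :=
  deriv_off (fun _ h => pf1_off (Or.inl h)) (fun _ h => pf1_off (Or.inr h)) hs

lemma exists_pfB : ∃ B : ℝ, 1 ≤ B ∧ ∀ s, pf1 s ^ 2 ≤ B * pf s ∧ -B ≤ pf1 s ∧ pf2 s ≤ B := by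
  have hσ : ContDiff ℝ 1 Real.smoothTransition := Real.smoothTransition.contDiff (n := 1)
  obtain ⟨B₀, h₀, hB₀⟩ := bdd_off (hσ.continuous_deriv le_rfl) fun s hs =>
    deriv_off (fun _ h => Real.smoothTransition.zero_of_nonpos h.le)
      (fun _ h => Real.smoothTransition.one_of_one_le h.le) hs
  obtain ⟨B₁, h₁, hB₁⟩ := bdd_off pf1_cd.continuous fun s hs => pf1_off hs
  obtain ⟨B₂, h₂, hB₂⟩ := bdd_off pf2_cont fun s hs => pf2_off hs
  refine ⟨1 + 4 * B₀ ^ 2 + B₁ + B₂, by nlinarith [sq_nonneg B₀], fun s => ⟨?_, ?_, ?_⟩⟩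
  · have h1 : HasDerivAt (fun s : ℝ => Real.smoothTransition (1 - s))
        (deriv Real.smoothTransition (1 - s) * (-1)) s :=
      (hσ.differentiable (by norm_num) (1 - s)).hasDerivAt.comp s
        ((hasDerivAt_id s).const_sub 1)
    have h2 : pf1 s = 2 * Real.smoothTransition (1 - s)
        * (deriv Real.smoothTransition (1 - s) * (-1)) := by
      exact ((h1.pow 2).congr_deriv (by simp)).deriv
    have h3 : deriv Real.smoothTransition (1 - s) ^ 2 ≤ B₀ ^ 2 := by
      rw [← sq_abs]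
      exact pow_le_pow_left₀ (abs_nonneg _) (hB₀ _) 2
    have h4 := pf_nonneg s
    calc pf1 s ^ 2 = 4 * deriv Real.smoothTransition (1 - s) ^ 2 * pf s := by
          rw [h2, pf]; ring
      _ ≤ (1 + 4 * B₀ ^ 2 + B₁ + B₂) * pf s := by
          refine mul_le_mul_of_nonneg_right (by linarith) h4
  · have := (abs_le.1 (hB₁ s)).1
    nlinarith [sq_nonneg B₀]
  · have := (abs_le.1 (hB₂ s)).2
    nlinarith [sq_nonneg B₀]

/-- a bound for the derivatives of `pf` -/
noncomputable def pB : ℝ := exists_pfB.choose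

lemma one_le_pB : 1 ≤ pB := exists_pfB.choose_spec.1
lemma pf1_sq (s : ℝ) : pf1 s ^ 2 ≤ pB * pf s := (exists_pfB.choose_spec.2 s).1
lemma pf1_ge (s : ℝ) : -pB ≤ pf1 s := (exists_pfB.choose_spec.2 s).2.1
lemma pf2_le (s : ℝ) : pf2 s ≤ pB := (exists_pfB.choose_spec.2 s).2.2

/-- a radial profile `f(|x|²)` whose gradient and tangential Laplacian are bounded by `g(|x|²)` -/
structure Rad (f g : ℝ → ℝ) : Prop where
  cd : ∀ s, 0 ≤ s → ContDiffAt ℝ 2 f s
  nonneg : ∀ s, 0 ≤ f s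
  le_one : ∀ s, f s ≤ 1
  g_nonneg : ∀ s, 0 ≤ s → 0 ≤ g s
  grad : ∀ s, 0 ≤ s → 4 * s * deriv f s ^ 2 ≤ f s * g s
  tr : ∀ s τ, 0 ≤ τ → τ ≤ s → 4 * deriv f s + 4 * τ * deriv (deriv f) s ≤ g s

/-- the profile of the core -/
noncomputable def fk (s : ℝ) : ℝ := pf (s - 1)

/-- the bound for the core -/
noncomputable def gk (s : ℝ) : ℝ := if s ≤ 2 then 8 * pB else 0

lemma fk_one {s : ℝ} (h : s ≤ 1) : fk s = 1 := pf_one (by linarith)

lemma fk_zero {s : ℝ} (h : 2 ≤ s) : fk s = 0 := pf_zero (by linarith)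

lemma rad_k : Rad fk gk := by
  have hB := one_le_pB
  have h1 : deriv fk = fun s => pf1 (s - 1) := by
    ext s
    exact (((pf_has (s - 1)).comp s ((hasDerivAt_id s).sub_const 1)).congr_deriv (by simp)).deriv
  have h2 : deriv (deriv fk) = fun s => pf2 (s - 1) := by
    ext s
    rw [h1]
    exact (((pf1_has (s - 1)).comp s ((hasDerivAt_id s).sub_const 1)).congr_deriv (by simp)).deriv
  refine ⟨fun s _ => (pf_cd2.comp (contDiff_id.sub contDiff_const)).contDiffAt,
    fun s => pf_nonneg _, fun s => pf_le_one _, fun s _ => ?_, fun s hs => ?_,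
    fun s τ h0 hs => ?_⟩
  · unfold gk
    split_ifs <;> linarith
  · rw [h1, gk, fk]
    have := pf1_sq (s - 1)
    have h3 := pf_nonneg (s - 1)
    split_ifs with h
    · nlinarith [sq_nonneg (pf1 (s - 1))]
    · simp [pf1_off (Or.inr (by linarith : 1 < s - 1))]
  · rw [h2, h1, gk]
    have h3 := pf1_nonpos (s - 1)
    have h4 := pf2_le (s - 1)
    split_ifs with h
    · nlinarith
    · simp [pf1_off (Or.inr (by linarith : 1 < s - 1)), pf2_off (Or.inr (by linarith : 1 < s - 1))]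

/-- the logarithmic profile -/
noncomputable def fp (M : ℕ) (s : ℝ) : ℝ := pf ((Real.log (1 + s) - 2) / M)

/-- the bound for the logarithmic profile -/
noncomputable def gp (M : ℕ) (s : ℝ) : ℝ :=
  if s ≤ 4 ^ (M + 2) then 4 * pB / (M ^ 2 * (1 + s)) else 0

lemma fp_one (M : ℕ) {s : ℝ} (h0 : 0 ≤ s) (h : s ≤ 2) : fp M s = 1 := by
  refine pf_one (div_nonpos_of_nonpos_of_nonneg ?_ (Nat.cast_nonneg _))
  have := Real.log_le_sub_one_of_pos (by linarith : 0 < 1 + s)
  linarith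

lemma fp_arg {M : ℕ} (hM : 1 ≤ M) {s : ℝ} (h : 4 ^ (M + 2) < s) :
    1 < (Real.log (1 + s) - 2) / M := by
  have hM' : (0 : ℝ) < M := by exact_mod_cast hM
  rw [lt_div_iff₀ hM', lt_sub_iff_add_lt, Real.lt_log_iff_exp_lt (by
    have : (0 : ℝ) < 4 ^ (M + 2) := by positivity
    linarith)]
  have h1 : Real.exp 1 ≤ 4 := Real.exp_one_lt_d9.le.trans (by norm_num)
  have h2 : Real.exp (1 * M + 2) = Real.exp 1 ^ (M + 2) := by
    rw [← Real.exp_nat_mul]
    push_cast
    ring_nf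
  rw [h2]
  have := pow_le_pow_left₀ (Real.exp_pos 1).le h1 (M + 2)
  linarith

lemma fp_zero {M : ℕ} (hM : 1 ≤ M) {s : ℝ} (h : 4 ^ (M + 2) < s) : fp M s = 0 :=
  pf_zero (fp_arg hM h).le

lemma rad_p {M : ℕ} (hM : 1 ≤ M) : Rad (fp M) (gp M) := by
  have hB := one_le_pB
  have hM' : (0 : ℝ) < M := by exact_mod_cast hM
  have hv : ∀ s : ℝ, -1 < s → HasDerivAt (fun s : ℝ => (Real.log (1 + s) - 2) / M)
      (1 / (1 + s) / M) s := fun s hs =>
    (((((hasDerivAt_id s).const_add 1).log (by simp; linarith))).sub_const 2).div_const _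
  have h1 : ∀ s : ℝ, -1 < s → deriv (fp M) s
      = pf1 ((Real.log (1 + s) - 2) / M) * (1 / (1 + s) / M) := fun s hs =>
    ((pf_has _).comp s (hv s hs)).deriv
  have h2 : ∀ s : ℝ, -1 < s → deriv (deriv (fp M)) s
      = pf2 ((Real.log (1 + s) - 2) / M) * (1 / (1 + s) / M) * (1 / (1 + s) / M)
        + pf1 ((Real.log (1 + s) - 2) / M) * (-1 / (1 + s) ^ 2 / M) := fun s hs => by
    have he : deriv (fp M) =ᶠ[𝓝 s]
        fun s => pf1 ((Real.log (1 + s) - 2) / M) * (1 / (1 + s) / M) := by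
      filter_upwards [lt_mem_nhds hs] with t ht using h1 t ht
    rw [he.deriv_eq]
    have h3 : HasDerivAt (fun s : ℝ => 1 / (1 + s) / M) (-1 / (1 + s) ^ 2 / M) s := by
      have := (((hasDerivAt_id s).const_add 1).inv (by simp; linarith)).div_const (M : ℝ)
      simpa using this
    exact (((pf1_has _).comp s (hv s hs)).mul h3).deriv
  refine ⟨fun s hs => ?_, fun s => pf_nonneg _, fun s => pf_le_one _, fun s hs => ?_,
    fun s hs => ?_, fun s τ h0 hs => ?_⟩
  · refine pf_cd2.contDiffAt.comp s ?_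
    refine (ContDiffAt.sub ?_ contDiffAt_const).div_const _
    exact (contDiffAt_const.add contDiffAt_id).log (by simp; linarith)
  · unfold gp
    split_ifs
    · positivity
    · exact le_rfl
  · rw [h1 s (by linarith), gp, fp]
    set v := (Real.log (1 + s) - 2) / M with hv'
    have h3 := pf1_sq v
    have h4 := pf_nonneg v
    split_ifs with h
    · have h5 : 4 * s * (pf1 v * (1 / (1 + s) / M)) ^ 2
          = pf1 v ^ 2 * (s / (1 + s)) * (4 / (M ^ 2 * (1 + s))) := by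
        field_simp
      have h6 : s / (1 + s) ≤ 1 := by
        rw [div_le_one (by linarith)]
        linarith
      have h7 : pf1 v ^ 2 * (s / (1 + s)) ≤ pB * pf v :=
        (mul_le_of_le_one_right (sq_nonneg _) h6).trans h3
      rw [h5]
      calc _ ≤ pB * pf v * (4 / (M ^ 2 * (1 + s))) :=
            mul_le_mul_of_nonneg_right h7 (by positivity)
        _ = _ := by ring
    · have h5 : pf1 v = 0 := pf1_off (Or.inr (fp_arg hM (not_le.1 h)))
      simp [h5]
  · have hs0 : 0 ≤ s := h0.trans hs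
    rw [h2 s (by linarith), h1 s (by linarith), gp]
    set v := (Real.log (1 + s) - 2) / M with hv'
    have h3 := pf1_nonpos v
    have h4 := pf2_le v
    split_ifs with h
    · have h6 : τ / (1 + s) ≤ 1 := by
        rw [div_le_one (by linarith)]
        linarith
      have h7 : 0 ≤ τ / (1 + s) := by positivity
      have h5 : 4 * (pf1 v * (1 / (1 + s) / M)) + 4 * τ * (pf2 v * (1 / (1 + s) / M)
          * (1 / (1 + s) / M) + pf1 v * (-1 / (1 + s) ^ 2 / M))
          = pf1 v * (1 - τ / (1 + s)) * (4 / (M * (1 + s)))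
            + pf2 v * (τ / (1 + s)) * (4 / (M ^ 2 * (1 + s))) := by
        field_simp
        ring
      rw [h5]
      have h8 : pf1 v * (1 - τ / (1 + s)) * (4 / (M * (1 + s))) ≤ 0 :=
        mul_nonpos_of_nonpos_of_nonneg (mul_nonpos_of_nonpos_of_nonneg h3 (by linarith))
          (by positivity)
      have h9 : pf2 v * (τ / (1 + s)) ≤ pB := by nlinarith
      have h10 := mul_le_mul_of_nonneg_right h9 (by positivity : 0 ≤ 4 / ((M : ℝ) ^ 2 * (1 + s)))
      have h11 : pB * (4 / ((M : ℝ) ^ 2 * (1 + s))) = 4 * pB / (M ^ 2 * (1 + s)) := by ring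
      linarith
    · have h5 : pf1 v = 0 := pf1_off (Or.inr (fp_arg hM (not_le.1 h)))
      have h6 : pf2 v = 0 := pf2_off (Or.inr (fp_arg hM (not_le.1 h)))
      simp [h5, h6]

/-! ### Profiles in the level -/

/-- the short profile, `1` on `[-3, -1]` and `0` off `(-4, 0)` -/
noncomputable def ll (s : ℝ) : ℝ := (1 - pf (s + 4)) * pf (s + 1)

/-- the long profile -/
noncomputable def et (c s : ℝ) : ℝ := (1 - pf (s + 4)) * Real.exp (-c * (s + 4))

/-- the majorant -/
noncomputable def mj (c s : ℝ) : ℝ := if -4 < s then Real.exp (-c * (s + 4)) else 0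

lemma ll_cd : ContDiff ℝ 2 ll :=
  (contDiff_const.sub (pf_cd2.comp (contDiff_id.add contDiff_const))).mul
    (pf_cd2.comp (contDiff_id.add contDiff_const))

lemma et_cd (c : ℝ) : ContDiff ℝ 2 (et c) :=
  (contDiff_const.sub (pf_cd2.comp (contDiff_id.add contDiff_const))).mul
    (Real.contDiff_exp.comp (contDiff_const.mul (contDiff_id.add contDiff_const)))

lemma ll_nonneg (s : ℝ) : 0 ≤ ll s := mul_nonneg (by linarith [pf_le_one (s + 4)]) (pf_nonneg _)

lemma ll_le_one (s : ℝ) : ll s ≤ 1 :=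
  mul_le_one₀ (by linarith [pf_nonneg (s + 4)]) (pf_nonneg _) (pf_le_one _)

lemma ll_one {s : ℝ} (h1 : -3 ≤ s) (h2 : s ≤ -1) : ll s = 1 := by
  rw [ll, pf_zero (by linarith), pf_one (by linarith)]
  norm_num

lemma et_nonneg (c s : ℝ) : 0 ≤ et c s :=
  mul_nonneg (by linarith [pf_le_one (s + 4)]) (Real.exp_pos _).le

lemma et_zero (c : ℝ) {s : ℝ} (h : s ≤ -4) : et c s = 0 := by
  rw [et, pf_one (by linarith)]
  norm_num

lemma mj_nonneg (c s : ℝ) : 0 ≤ mj c s := by
  unfold mj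
  split_ifs
  · exact (Real.exp_pos _).le
  · exact le_rfl

lemma et_le_mj (c s : ℝ) : et c s ≤ mj c s := by
  unfold mj
  split_ifs with h
  · exact mul_le_of_le_one_left (Real.exp_pos _).le (by linarith [pf_nonneg (s + 4)])
  · rw [et_zero c (not_lt.1 h)]

lemma mj_le_one {c : ℝ} (hc : 0 < c) (s : ℝ) : mj c s ≤ 1 := by
  unfold mj
  split_ifs with h
  · rw [Real.exp_le_one_iff]
    nlinarith
  · exact zero_le_one

lemma et_le_one {c : ℝ} (hc : 0 < c) (s : ℝ) : et c s ≤ 1 := (et_le_mj c s).trans (mj_le_one hc s)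

lemma one_le_exp {c s : ℝ} (hc : 0 < c) (h : s ≤ 0) :
    1 ≤ Real.exp (4 * c) * Real.exp (-c * (s + 4)) := by
  rw [← Real.exp_add, Real.one_le_exp_iff]
  nlinarith

lemma ll_le_et {c : ℝ} (hc : 0 < c) (s : ℝ) : ll s ≤ Real.exp (4 * c) * et c s := by
  rcases le_total s 0 with h | h
  · have h1 := one_le_exp hc h
    have h2 : 0 ≤ 1 - pf (s + 4) := by linarith [pf_le_one (s + 4)]
    have h3 := pf_le_one (s + 1)
    rw [ll, et]
    nlinarith
  · rw [ll, pf_zero (by linarith : 1 ≤ s + 1), mul_zero]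
    exact mul_nonneg (Real.exp_pos _).le (et_nonneg c s)

lemma one_le_mj {c : ℝ} (hc : 0 < c) {s : ℝ} (h : ll s ≠ 0) : 1 ≤ Real.exp (4 * c) * mj c s := by
  have h1 : s ≤ 0 := by
    by_contra h'
    exact h (by rw [ll, pf_zero (by linarith : 1 ≤ s + 1), mul_zero])
  have h2 : -4 < s := by
    by_contra h'
    exact h (by rw [ll, pf_one (by linarith : s + 4 ≤ 0), sub_self, zero_mul])
  rw [mj, if_pos h2]
  exact one_le_exp hc h1

lemma ll_has (s : ℝ) :
    HasDerivAt ll (-pf1 (s + 4) * pf (s + 1) + (1 - pf (s + 4)) * pf1 (s + 1)) s := by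
  have h1 := ((pf_has (s + 4)).comp s ((hasDerivAt_id s).add_const 4)).const_sub 1
  have h2 := (pf_has (s + 1)).comp s ((hasDerivAt_id s).add_const 1)
  exact (h1.mul h2).congr_deriv (by simp)

lemma deriv_ll {c : ℝ} (hc : 0 < c) (s : ℝ) :
    -deriv ll s ≤ pB * Real.exp (4 * c) * et c s := by
  rw [(ll_has s).deriv]
  have h2 : 0 ≤ 1 - pf (s + 4) := by linarith [pf_le_one (s + 4)]
  have h3 : 0 ≤ -pf1 (s + 4) * pf (s + 1) :=
    mul_nonneg (by linarith [pf1_nonpos (s + 4)]) (pf_nonneg _)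
  have hB := one_le_pB
  rcases le_or_gt s 0 with h | h
  · have h1 := one_le_exp hc h
    have h4 := pf1_ge (s + 1)
    have h5 : -((1 - pf (s + 4)) * pf1 (s + 1)) ≤ (1 - pf (s + 4)) * pB := by nlinarith
    have h6 : (1 - pf (s + 4)) * pB * 1 ≤ (1 - pf (s + 4)) * pB
        * (Real.exp (4 * c) * Real.exp (-c * (s + 4))) :=
      mul_le_mul_of_nonneg_left h1 (by positivity)
    rw [et]
    nlinarith
  · rw [pf1_off (Or.inr (by linarith : 1 < s + 1))]
    have := mul_nonneg (mul_nonneg (by linarith : 0 ≤ pB) (Real.exp_pos (4 * c)).le)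
      (et_nonneg c s)
    linarith

lemma deriv_et (c s : ℝ) : -deriv (et c) s ≤ c * et c s := by
  have h1 := ((pf_has (s + 4)).comp s ((hasDerivAt_id s).add_const 4)).const_sub 1
  have h2 := (((hasDerivAt_id s).add_const 4).const_mul (-c)).exp
  have h3 : deriv (et c) s = -pf1 (s + 4) * Real.exp (-c * (s + 4))
      + (1 - pf (s + 4)) * (Real.exp (-c * (s + 4)) * -c) := by
    exact ((h1.mul h2).congr_deriv (by simp)).deriv
  have h4 : 0 ≤ -pf1 (s + 4) * Real.exp (-c * (s + 4)) :=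
    mul_nonneg (by linarith [pf1_nonpos (s + 4)]) (Real.exp_pos _).le
  rw [h3, et]
  nlinarith

end Vale.Agent.P218UI
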