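import Vale.Agent.P218UI.Prof

/-! Radial functions, finite sums, and the function `(1 - K)₊³ / (1 + W)`. -/

open Set Filter Topology
open scoped ContDiff RealInnerProductSpace

namespace Vale.Agent.P218UI

open Vale.Agent.P218UA Vale.Agent.P218UM

/-- the rescaled square of the distance -/
noncomputable def uq (z : E3) (r : ℝ) (x : E3) : ℝ := ‖r⁻¹ • (x - z)‖ ^ 2

lemma uq_nonneg (z : E3) (r : ℝ) (x : E3) : 0 ≤ uq z r x := sq_nonneg _

lemma uq_cd (z : E3) (r : ℝ) : ContDiff ℝ 2 (uq z r) :=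
  (contDiff_norm_sq ℝ).comp ((contDiff_id.sub contDiff_const).const_smul _)

lemma gradient_uq (z : E3) (r : ℝ) (x : E3) :
    gradient (uq z r) x = (2 * r⁻¹ ^ 2) • (x - z) := by
  refine ext_inner_right ℝ fun v => ?_
  have h1 : HasFDerivAt (fun y : E3 => r⁻¹ • (y - z)) (r⁻¹ • ContinuousLinearMap.id ℝ E3) x :=
    ((hasFDerivAt_id x).sub_const z).const_smul r⁻¹
  have h2 := ((hasStrictFDerivAt_norm_sq (r⁻¹ • (x - z))).hasFDerivAt.comp x h1).fderiv
  rw [inner_gradient, show uq z r = (fun y : E3 => ‖y‖ ^ 2) ∘ fun y : E3 => r⁻¹ • (y - z) from rfl,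
    h2]
  simp [real_inner_smul_left, inner_sub_left]
  ring

lemma trT_uq (z : E3) (r : ℝ) {n : E3} (hn : ‖n‖ = 1) (x : E3) :
    trT n (hs (uq z r) x) = 4 * r⁻¹ ^ 2 := by
  have h1 : gradient (uq z r) = fun x => (2 * r⁻¹ ^ 2) • (x - z) := funext (gradient_uq z r)
  have h2 : hs (uq z r) x = (2 * r⁻¹ ^ 2) • ContinuousLinearMap.id ℝ E3 := by
    rw [hs, h1]
    exact (((hasFDerivAt_id (𝕜 := ℝ) x).sub_const z).const_smul (2 * r⁻¹ ^ 2)).fderiv
  rw [trT, trace_eq, h2]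
  simp only [smul_apply, ContinuousLinearMap.id_apply, real_inner_smul_left,
    real_inner_self_eq_norm_sq, hn, OrthonormalBasis.norm_eq_one, Fin.sum_univ_three]
  ring

lemma norm_gradient_uq (z : E3) (r : ℝ) (x : E3) :
    ‖gradient (uq z r) x‖ ^ 2 = 4 * uq z r x * r⁻¹ ^ 2 := by
  rw [gradient_uq, uq, norm_smul, norm_smul, mul_pow, mul_pow, Real.norm_eq_abs, Real.norm_eq_abs,
    sq_abs, sq_abs]
  ring

variable {f g : ℝ → ℝ}

lemma Rad.cd3 (h : Rad f g) (z : E3) (r : ℝ) : ContDiff ℝ 2 fun x => f (uq z r x) :=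
  contDiff_iff_contDiffAt.2 fun x => (h.cd _ (uq_nonneg z r x)).comp x (uq_cd z r).contDiffAt

lemma Rad.grad3 (h : Rad f g) (z : E3) (r : ℝ) (x : E3) :
    ‖gradient (fun x => f (uq z r x)) x‖ ^ 2 ≤ f (uq z r x) * (g (uq z r x) / r ^ 2) := by
  rw [gradient_comp ((h.cd _ (uq_nonneg z r x)).differentiableAt (by norm_num))
    ((uq_cd z r).differentiable (by norm_num) x), norm_smul, mul_pow, norm_gradient_uq,
    Real.norm_eq_abs, sq_abs]
  have := mul_le_mul_of_nonneg_right (h.grad _ (uq_nonneg z r x)) (sq_nonneg r⁻¹)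
  calc _ = 4 * uq z r x * deriv f (uq z r x) ^ 2 * r⁻¹ ^ 2 := by ring
    _ ≤ _ := this
    _ = _ := by rw [inv_pow]; ring

lemma Rad.tr3 (h : Rad f g) (z : E3) {r : ℝ} (hr : 0 < r) {n : E3} (hn : ‖n‖ = 1) (x : E3) :
    trT n (hs (fun x => f (uq z r x)) x) ≤ g (uq z r x) / r ^ 2 := by
  rw [trT_comp (h.cd _ (uq_nonneg z r x)) (uq_cd z r).contDiffAt, trT_uq z r hn]
  have h1 := inner_sq_le hn (gradient (uq z r) x)
  have h2 := norm_gradient_uq z r x
  have h3 := sq_nonneg ⟪gradient (uq z r) x, n⟫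
  set τ := (‖gradient (uq z r) x‖ ^ 2 - ⟪gradient (uq z r) x, n⟫ ^ 2) * r ^ 2 / 4 with hτ
  have hr2 : 0 < r ^ 2 := by positivity
  have h4 : r⁻¹ ^ 2 * r ^ 2 = 1 := by field_simp
  have h5 : τ ≤ uq z r x := by
    have : ‖gradient (uq z r) x‖ ^ 2 * r ^ 2 = 4 * uq z r x := by
      rw [h2, mul_assoc, h4, mul_one]
    rw [hτ]
    nlinarith
  have h6 := h.tr (uq z r x) τ (by rw [hτ]; have := sub_nonneg.2 h1; positivity) h5
  rw [le_div_iff₀ hr2]
  refine le_trans (le_of_eq ?_) h6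
  rw [hτ]
  linear_combination (4 * deriv f (uq z r x)) * h4

section sums

variable {ι : Type*} (F : Finset ι) (a : ι → ℝ) {φ : ι → E3 → ℝ}

lemma gradient_sum (h : ∀ i, ContDiff ℝ 2 (φ i)) (x : E3) :
    gradient (fun y => ∑ i ∈ F, a i * φ i y) x = ∑ i ∈ F, a i • gradient (φ i) x := by
  refine ext_inner_right ℝ fun v => ?_
  have : HasFDerivAt (fun y => ∑ i ∈ F, a i * φ i y) (∑ i ∈ F, a i • fderiv ℝ (φ i) x) x :=
    HasFDerivAt.fun_sum fun i _ =>
      ((h i).differentiable (by norm_num) x).hasFDerivAt.const_mul (a i)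
  rw [inner_gradient, this.fderiv, sum_inner]
  simp [real_inner_smul_left]

lemma diff_gradient {f : E3 → ℝ} (hf : ContDiff ℝ 2 f) (x : E3) :
    DifferentiableAt ℝ (gradient f) x :=
  (InnerProductSpace.toDual ℝ E3).symm.toContinuousLinearEquiv.differentiableAt.comp x
    (diff_fderiv hf.contDiffAt)

lemma trT_sum (h : ∀ i, ContDiff ℝ 2 (φ i)) (n x : E3) :
    trT n (hs (fun y => ∑ i ∈ F, a i * φ i y) x) = ∑ i ∈ F, a i * trT n (hs (φ i) x) := by
  have h1 : gradient (fun y => ∑ i ∈ F, a i * φ i y) = fun x => ∑ i ∈ F, a i • gradient (φ i) x :=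
    funext (gradient_sum F a h)
  have h2 : hs (fun y => ∑ i ∈ F, a i * φ i y) x = ∑ i ∈ F, a i • hs (φ i) x := by
    rw [hs, h1]
    exact (HasFDerivAt.fun_sum fun i _ => (diff_gradient (h i) x).hasFDerivAt.const_smul
      (a i)).fderiv
  simp only [h2, trT, trace_eq, sum_apply, smul_apply, sum_inner,
    real_inner_smul_left, mul_sub, Finset.sum_sub_distrib, Finset.mul_sum]
  rw [Finset.sum_comm]

end sums

/-- the cut-off `(1 - K)₊³` -/
noncomputable def ph (s : ℝ) : ℝ := max (1 - s) 0 ^ 3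

/-- the damping `1 / (1 + W)` -/
noncomputable def dm (s : ℝ) : ℝ := (1 + s)⁻¹

lemma ph_cd : ContDiff ℝ 2 ph := contDiff_max_cube.comp (contDiff_const.sub contDiff_id)

lemma ph_has (s : ℝ) : HasDerivAt ph (-(3 * max (1 - s) 0 ^ 2)) s :=
  ((hasDerivAt_max_pow 1 (1 - s)).comp s ((hasDerivAt_id s).const_sub 1)).congr_deriv
    (by norm_num)

lemma deriv2_ph (s : ℝ) : deriv (deriv ph) s = 6 * max (1 - s) 0 := by
  have : deriv ph = fun s => -(3 * max (1 - s) 0 ^ 2) := funext fun s => (ph_has s).deriv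
  rw [this]
  exact (((((hasDerivAt_max_pow 0 (1 - s)).comp s ((hasDerivAt_id s).const_sub 1)).const_mul
    3).neg).congr_deriv (by norm_num; ring)).deriv

lemma dm_cd {s : ℝ} (hs : 0 ≤ s) : ContDiffAt ℝ 2 dm s :=
  (contDiffAt_const.add contDiffAt_id).inv (by simp; linarith)

lemma dm_has {s : ℝ} (hs : -1 < s) : HasDerivAt dm (-dm s ^ 2) s :=
  (((hasDerivAt_id s).const_add 1).inv (by simp; linarith)).congr_deriv (by simp [dm, neg_div])

lemma deriv2_dm {s : ℝ} (hs : 0 ≤ s) : deriv (deriv dm) s = 2 * dm s ^ 3 := by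
  have : deriv dm =ᶠ[𝓝 s] fun s => -dm s ^ 2 := by
    filter_upwards [lt_mem_nhds (by linarith : -1 < s)] with t ht using (dm_has ht).deriv
  rw [this.deriv_eq]
  exact ((((dm_has (by linarith : -1 < s)).pow 2).neg).congr_deriv (by norm_num; ring)).deriv

lemma dm_pos {s : ℝ} (hs : 0 ≤ s) : 0 < dm s := inv_pos.2 (by linarith)

lemma dm_le_one {s : ℝ} (hs : 0 ≤ s) : dm s ≤ 1 := inv_le_one_of_one_le₀ (by linarith)

lemma dm_mul_le {s a : ℝ} (hs : 0 ≤ s) (ha : a ≤ s) : dm s * a ≤ 1 := by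
  rw [dm, inv_mul_le_iff₀ (by linarith)]
  linarith

lemma gam_has {K W : ℝ → ℝ} {K' W' s : ℝ} (hK : HasDerivAt K K' s) (hW : HasDerivAt W W' s)
    (h0 : 0 ≤ W s) : deriv (fun s => ph (K s) * dm (W s)) s
      = -(3 * max (1 - K s) 0 ^ 2 * dm (W s)) * K' - ph (K s) * dm (W s) ^ 2 * W' :=
  ((((ph_has (K s)).comp s hK).mul ((dm_has (by linarith : -1 < W s)).comp s hW)).congr_deriv
    (by simp only [Function.comp]; ring)).deriv

lemma gam_grad {K W : E3 → ℝ} {x : E3} (hK : ContDiffAt ℝ 2 K x) (hW : ContDiffAt ℝ 2 W x)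
    (h0 : 0 ≤ W x) : gradient (fun x => ph (K x) * dm (W x)) x
      = -((3 * max (1 - K x) 0 ^ 2 * dm (W x)) • gradient K x
        + (ph (K x) * dm (W x) ^ 2) • gradient W x) := by
  have h1 := hK.differentiableAt (by norm_num)
  have h2 := hW.differentiableAt (by norm_num)
  have h3 := (ph_has (K x)).differentiableAt
  have h4 := (dm_has (by linarith : -1 < W x)).differentiableAt
  rw [gradient_mul (f := fun x => ph (K x)) (g := fun x => dm (W x)) (h3.comp x h1) (h4.comp x h2),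
    gradient_comp h3 h1, gradient_comp h4 h2,
    (ph_has _).deriv, (dm_has (by linarith : -1 < W x)).deriv]
  module

lemma tan_inner {n : E3} (hn : ‖n‖ = 1) (a b : E3) :
    ⟪gT n a, gT n b⟫ = ⟪a, b⟫ - ⟪a, n⟫ * ⟪b, n⟫ := by
  simp only [gT, inner_sub_left, inner_sub_right, real_inner_smul_left, real_inner_smul_right,
    real_inner_self_eq_norm_sq, hn, real_inner_comm n]
  ring

/-- joint convexity of `(K, W) ↦ (1 - K)₊³ / (1 + W)` -/
lemma gam_trT {K W : E3 → ℝ} {x : E3} (hK : ContDiffAt ℝ 2 K x) (hW : ContDiffAt ℝ 2 W x)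
    (h0 : 0 ≤ W x) {n : E3} (hn : ‖n‖ = 1) : -trT n (hs (fun x => ph (K x) * dm (W x)) x)
      ≤ 3 * max (1 - K x) 0 ^ 2 * dm (W x) * trT n (hs K x)
        + ph (K x) * dm (W x) ^ 2 * trT n (hs W x) := by
  have h1 := hK.differentiableAt (by norm_num)
  have h2 := hW.differentiableAt (by norm_num)
  have h3 := (ph_has (K x)).differentiableAt
  have h4 := (dm_has (by linarith : -1 < W x)).differentiableAt
  rw [trT_mul (f := fun x => ph (K x)) (g := fun x => dm (W x)) (ph_cd.contDiffAt.comp x hK)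
    ((dm_cd h0).comp x hW), trT_comp ph_cd.contDiffAt hK,
    trT_comp (dm_cd h0) hW, gradient_comp h3 h1, gradient_comp h4 h2, (ph_has _).deriv,
    (dm_has (by linarith : -1 < W x)).deriv, deriv2_ph, deriv2_dm h0]
  simp only [real_inner_smul_left, real_inner_smul_right, ph]
  have e1 := tan_inner hn (gradient K x) (gradient K x)
  have e2 := tan_inner hn (gradient W x) (gradient W x)
  have e3 := tan_inner hn (gradient K x) (gradient W x)
  rw [real_inner_self_eq_norm_sq, real_inner_self_eq_norm_sq] at e1 e2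
  have e4 := (abs_le.1 (abs_real_inner_le_norm (gT n (gradient K x)) (gT n (gradient W x)))).1
  set α := ‖gT n (gradient K x)‖
  set β := ‖gT n (gradient W x)‖
  set u := max (1 - K x) 0
  set G := dm (W x)
  have hu : 0 ≤ u := le_max_right _ _
  have hG : 0 ≤ G := (dm_pos h0).le
  have e5 : 0 ≤ u * G * (2 * (u * G * β) ^ 2 - 6 * (u * G * β) * α + 6 * α ^ 2) :=
    mul_nonneg (mul_nonneg hu hG) (by nlinarith [sq_nonneg (u * G * β - 3 / 2 * α), sq_nonneg α])
  have e6 := mul_le_mul_of_nonneg_left e4 (by positivity : 0 ≤ 6 * u ^ 2 * G ^ 2)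
  rw [e3] at e6
  have e7 : ‖gradient K x‖ ^ 2 - ⟪gradient K x, n⟫ ^ 2 = α ^ 2 := by rw [e1]; ring
  have e8 : ‖gradient W x‖ ^ 2 - ⟪gradient W x, n⟫ ^ 2 = β ^ 2 := by rw [e2]; ring
  rw [e7, e8]
  nlinarith

end Vale.Agent.P218UI
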